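import Vale.Agent.P231.S3S.StdP
import Vale.Agent.P231.S2N.Main

/-!
# P231, stage 3, S3-Y: the standard family over the space of pairs, with uniform margins
-/

set_option maxSynthPendingDepth 3
set_option linter.unusedSectionVars false
set_option linter.unusedVariables false

open Bundle Manifold Set Filter Module MeasureTheory
open scoped ContDiff Manifold Topology ENNReal

namespace Vale.Agent.P231.S3Y

noncomputable section

open Vale.Agent.P234 Vale.Agent.P231 Vale.Agent.P231.Fm Vale.Agent.P231.W Vale.Agent.P231.WR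
open Vale.Agent.P231.WF Vale.Agent.P231.H766 Vale.Agent.P231.S2N Vale.Agent.P231.S3S

/-! ### uniform bounds over spaces covered by finitely many compact pieces -/

section PC

variable {X : Type*} {DX : Dif X} {V : Type} [NormedAddCommGroup V] [NormedSpace ℝ V]
  [FiniteDimensional ℝ V]

theorem PC.gap (h : PC DX) {f : X × V → ℝ} (hf : (DX.prod (Dif.lin V)).Map (Dif.lin ℝ) f)
    {K : Set V} (hK : IsCompact K) {c : ℝ} (hc : ∀ x, ∀ r ∈ K, f (x, r) < c) :
    ∃ m, m < c ∧ ∀ x, ∀ r ∈ K, f (x, r) < m := by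
  have key : ∀ᶠ m in 𝓝 c, ∀ x : X, ∀ r ∈ K, f (x, r) < m := by
    refine h.eventually (P := fun m x r => f (x, r) < m) hK fun E _ _ _ u z hu r hr => ?_
    have h0 : DX.At (fun q : E × V => u q.1) (z, r) :=
      DX.comp (u := u) (g := Prod.fst) (x := (z, r)) hu (Sm.of_contDiff contDiff_fst _)
    have h1 : Sm (fun q : E × V => f (u q.1, q.2)) (z, r) :=
      hf (u := fun q : E × V => (u q.1, q.2)) ⟨h0, Sm.of_contDiff contDiff_snd _⟩
    have h2 : ContinuousAt (fun p : ℝ × (E × V) => f (u p.2.1, p.2.2)) (c, (z, r)) :=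
      ContinuousAt.comp (f := fun p : ℝ × (E × V) => p.2) (x := (c, (z, r))) h1.continuousAt
        continuous_snd.continuousAt
    exact h2.eventually_lt continuous_fst.continuousAt (hc (u z) r hr)
  have h3 : ∀ᶠ m in 𝓝[<] c, ∀ x : X, ∀ r ∈ K, f (x, r) < m := key.filter_mono nhdsWithin_le_nhds
  obtain ⟨m, h4, h5⟩ := (h3.and self_mem_nhdsWithin).exists
  exact ⟨m, h5, h4⟩

theorem PC.bdd (h : PC DX) {f : X × V → ℝ} (hf : (DX.prod (Dif.lin V)).Map (Dif.lin ℝ) f)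
    {K : Set V} (hK : IsCompact K) : ∃ C, 0 < C ∧ ∀ x, ∀ r ∈ K, f (x, r) ≤ C := by
  have key : ∀ᶠ m in 𝓝 (0 : ℝ), ∀ x : X, ∀ r ∈ K, m * f (x, r) < 1 := by
    refine h.eventually (P := fun m x r => m * f (x, r) < 1) hK fun E _ _ _ u z hu r hr => ?_
    have h0 : DX.At (fun q : E × V => u q.1) (z, r) :=
      DX.comp (u := u) (g := Prod.fst) (x := (z, r)) hu (Sm.of_contDiff contDiff_fst _)
    have h1 : Sm (fun q : E × V => f (u q.1, q.2)) (z, r) :=
      hf (u := fun q : E × V => (u q.1, q.2)) ⟨h0, Sm.of_contDiff contDiff_snd _⟩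
    have h2 : ContinuousAt (fun p : ℝ × (E × V) => f (u p.2.1, p.2.2)) (0, (z, r)) :=
      ContinuousAt.comp (f := fun p : ℝ × (E × V) => p.2) (x := (0, (z, r))) h1.continuousAt
        continuous_snd.continuousAt
    refine (continuous_fst.continuousAt.mul h2).eventually_lt_const ?_
    simp
  have h3 : ∀ᶠ m in 𝓝[>] (0 : ℝ), ∀ x : X, ∀ r ∈ K, m * f (x, r) < 1 :=
    key.filter_mono nhdsWithin_le_nhds
  obtain ⟨m, h4, h5⟩ := (h3.and self_mem_nhdsWithin).exists
  have h6 : (0 : ℝ) < m := h5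
  refine ⟨m⁻¹, inv_pos.2 h6, fun x r hr => ?_⟩
  have h7 := h4 x r hr
  calc f (x, r) = m⁻¹ * (m * f (x, r)) := by rw [inv_mul_cancel_left₀ h6.ne']
    _ ≤ m⁻¹ * 1 := mul_le_mul_of_nonneg_left h7.le (inv_pos.2 h6).le
    _ = m⁻¹ := mul_one _

end PC

variable {E : Type*} [NormedAddCommGroup E] [NormedSpace ℝ E]
  {M : Type*} [MetricSpace M] [ChartedSpace E M]
  [RiemannianBundle (fun x : M => TangentSpace 𝓘(ℝ, E) x)]
  {e : ∀ x : M, TangentSpace 𝓘(ℝ, E) x → M}
  [FiniteDimensional ℝ E] [IsManifold 𝓘(ℝ, E) ∞ M]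
  [IsContMDiffRiemannianBundle 𝓘(ℝ, E) ∞ E (fun x : M => TangentSpace 𝓘(ℝ, E) x)]
  [CompactSpace M] [ConnectedSpace M] [IsRiemannianManifold 𝓘(ℝ, E) M]

/-- the variation is bounded by the energy -/
theorem variation_le {c : ℝ → M} (hc : ContMDiff 𝓘(ℝ, ℝ) 𝓘(ℝ, E) ∞ c) {T : ℝ} (hT : 0 ≤ T) :
    eVariationOn c (Icc 0 T) ≤ ENNReal.ofReal (((∫ t in (0 : ℝ)..T,
      nm (c t) (WC.vl c t : E) ^ 2) + T) / 2) := by
  have hcont := continuous_speed_sq hc
  set f : ℝ → ℝ := fun t => ‖(mfderiv 𝓘(ℝ, ℝ) 𝓘(ℝ, E) c t (1 : ℝ) :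
      TangentSpace 𝓘(ℝ, E) (c t))‖ ^ 2 with hf
  refine (eVariationOn_le_pathELength (hc.of_le (by simp)) hT).trans ?_
  rw [Manifold.pathELength_eq_lintegral_mfderiv_Icc]
  have h1 : ∫⁻ t in Icc 0 T, ‖(mfderiv 𝓘(ℝ, ℝ) 𝓘(ℝ, E) c t (1 : ℝ) :
      TangentSpace 𝓘(ℝ, E) (c t))‖ₑ ≤ ∫⁻ t in Icc 0 T, ENNReal.ofReal ((f t + 1) / 2) := by
    refine lintegral_mono fun t => ?_
    rw [← ofReal_norm]
    refine ENNReal.ofReal_le_ofReal ?_
    rw [hf]
    nlinarith [sq_nonneg (‖(mfderiv 𝓘(ℝ, ℝ) 𝓘(ℝ, E) c t (1 : ℝ) :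
      TangentSpace 𝓘(ℝ, E) (c t))‖ - 1)]
  refine h1.trans ?_
  have hi : Integrable (fun t => (f t + 1) / 2) (volume.restrict (Icc 0 T)) :=
    ((hcont.add continuous_const).div_const 2).continuousOn.integrableOn_Icc
  rw [← ofReal_integral_eq_lintegral_ofReal hi (Eventually.of_forall fun t => by
    have : 0 ≤ f t := sq_nonneg _
    positivity)]
  refine ENNReal.ofReal_le_ofReal ?_
  rw [integral_Icc_eq_integral_Ioc, ← intervalIntegral.integral_of_le hT,
    intervalIntegral.integral_div, intervalIntegral.integral_add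
      (hcont.intervalIntegrable _ _) (continuous_const.intervalIntegrable _ _)]
  simp only [intervalIntegral.integral_const, sub_zero, smul_eq_mul, mul_one]
  exact le_rfl

variable {D : ℝ}

/-- the energies of the push-offs are small -/
def EnLt (e : ∀ x : M, TangentSpace 𝓘(ℝ, E) x → M) (Lam : Pr e D × ℝ → Pr e D)
    (Y : Pr e D → E) (ε₀ : ℝ) : Prop :=
  ∀ ε ∈ Ioc 0 ε₀, ∀ b, enB e Lam Y b ε < 2 * D

/-- the margin of a standard family: the loops of radius at least `s` have variation at most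
`m < 2 D` -/
def Margin (Lam : Pr e D × ℝ → Pr e D) (G : Pr e D × ℝ → M) : Prop :=
  ∀ s, 0 < s → ∃ m, m < 2 * D ∧ ∀ b R, s ≤ R →
    eVariationOn (fun t => G (Lam (b, t), R)) (Icc 0 (2 * D)) ≤ ENNReal.ofReal m

/-- equivariant contraction, with the bound for the variation -/
theorem uec_Pr' (F : Facts e) (hD : 0 < D) (hB : InjGE e D)
    (hdiam : ∀ p q : M, dist p q ≤ D) {l : ℕ}
    (hP : ∀ x y : M, dist x y = D → finrank ℝ (H775.Pl e D x y) = l + 1)
    {Lam : Pr e D × ℝ → Pr e D} (h : IsFlow (dPr e D) (2 * D) Lam)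
    (hv : ∀ b t, (Lam (b, t)).v = phi F (b.v, t)) {C : Pr e D → M}
    (hC : (dPr e D).Map (dM E M) C)
    (hlen : ∀ b, eVariationOn (fun t => C (Lam (b, t))) (Icc 0 (2 * D)) <
      ENNReal.ofReal (2 * D)) :
    ∃ H : Pr e D × ℝ → M, ((dPr e D).prod (Dif.lin ℝ)).Map (dM E M) H ∧
      (∀ b u, u ≤ 0 → H (b, u) = C b) ∧ (∀ b u, 1 ≤ u → H (b, u) = H (b, 1)) ∧
      (∀ b t, H (Lam (b, t), 1) = H (b, 1)) ∧
      (∀ b u, eVariationOn (fun t => H (Lam (b, t), u)) (Icc 0 (2 * D)) ≤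
        eVariationOn (fun t => C (Lam (b, t))) (Icc 0 (2 * D))) := by
  let t := topF (dPr e D)
  have hcomp : CompactSpace (Pr e D) := (pc_Pr F hD hB hdiam hP).compactSpace
  have h2D : 0 < 2 * D := by positivity
  have hA : ∀ (b : Pr e D) (t : ℝ), (actPr h).φ b t = Lam (b, 2 * D * t) := fun b t => rfl
  have hvar : ∀ (K : Pr e D → M) (b : Pr e D),
      eVariationOn (fun t => K ((actPr h).φ b t)) (Icc 0 1) =
        eVariationOn (fun t => K (Lam (b, t))) (Icc 0 (2 * D)) := fun K b =>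
    var_scale (fun t => K (Lam (b, t))) h2D
  obtain ⟨H, h1, h2, h3, h4, h5, h6⟩ := uec (A := actPr h)
    (fun G hG => continuous_topF hG)
    (fun b => fou_ne_Pr F hD hB hdiam h hv b) (WD3.geoM F hB) hC (by
      intro b
      rw [hvar]
      refine (hlen b).trans_le (le_of_eq ?_)
      rw [ENNReal.ofReal_mul zero_le_two, ENNReal.ofReal_ofNat])
  have hscale : ∀ t : ℝ, 2 * D * (t / (2 * D)) = t := fun t => by
    field_simp
  refine ⟨fun p => H p.1 p.2, h1, h2, h3, fun b t => ?_, fun b u => ?_⟩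
  · have h7 := h4 b (t / (2 * D))
    rw [hA, hscale] at h7
    exact h7
  · have h7 := h5 b u
    rw [hvar C, hvar fun w => H w u] at h7
    exact h7

/-- **S3-STD over the space of pairs, with margins** -/
theorem exists_stdP_margin {F : Facts e} {hD : 0 < D} {hB : InjGE e D}
    {hdiam : ∀ p q : M, dist p q ≤ D} {l : ℕ}
    (hP : ∀ x y : M, dist x y = D → finrank ℝ (H775.Pl e D x y) = l + 1)
    {Lam : Pr e D × ℝ → Pr e D} {Y : Pr e D → E} {ε₀ : ℝ}
    (PL : PushL F hD hB hdiam Lam Y ε₀) (hen : EnLt e Lam Y ε₀) {r : ℝ} (hr : 0 < r)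
    (hr1 : 12 * r ≤ 1) (hr2 : 3 * r ≤ ε₀) :
    ∃ G : Pr e D × ℝ → M, StdP e Lam Y r G ∧ Margin Lam G := by
  have hC : (dPr e D).Map (dM E M) (fun b => poP e Y (3 * r) b) := fun {E'} _ _ _ {u x} hu =>
    map_poP F PL.fld (u := fun s => (u s, 3 * r)) ⟨hu, Sm.of_contDiff contDiff_const _⟩
  obtain ⟨H, h1, h2, h3, h4, h5⟩ := uec_Pr' F hD hB hdiam hP PL.flow PL.v hC
    (fun b => PL.lenp (3 * r) ⟨by positivity, hr2⟩ b)
  have hlt : ∀ {b R}, 0 < R → R < 1 / 2 →
      eVariationOn (fun t => stdP e Y r H (Lam (b, t), R)) (Icc 0 (2 * D)) =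
        eVariationOn (fun t => poP e Y (rho r R) (Lam (b, t))) (Icc 0 (2 * D)) := by
    intro b R _ h
    have k : (fun t => stdP e Y r H (Lam (b, t), R)) =
        fun t => poP e Y (rho r R) (Lam (b, t)) := funext fun t => stdP_lt h
    rw [k]
  have hgt : ∀ {b R}, 1 / 4 < R →
      eVariationOn (fun t => stdP e Y r H (Lam (b, t), R)) (Icc 0 (2 * D)) ≤
        eVariationOn (fun t => poP e Y (3 * r) (Lam (b, t))) (Icc 0 (2 * D)) := by
    intro b R h
    have k : (fun t => stdP e Y r H (Lam (b, t), R)) =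
        fun t => H (Lam (b, t), 4 * R - 3) := funext fun t => stdP_gt hr hr1 h2 h
    rw [k]
    exact h5 b _
  refine ⟨stdP e Y r H, ⟨hr, hr1, map_stdP F PL.fld hr hr1 h1 h2, fun b R hR => ?_,
    fun b R hR => ?_, fun b t R hR => ?_, fun b R hR => ?_⟩, fun s hs => ?_⟩
  · rw [stdP_lt (by linarith), rho_of_le hr hR]
  · rw [stdP_gt hr hr1 h2 (by linarith), stdP_gt hr hr1 h2 (by norm_num), h3 _ _ (by linarith)]
    norm_num
  · rw [stdP_gt hr hr1 h2 (by linarith), stdP_gt hr hr1 h2 (by linarith), h3 _ _ (by linarith),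
      h3 b _ (by linarith), h4]
  · rcases lt_or_ge R (1 / 2) with h | h
    · rw [hlt hR h]
      exact PL.lenp (rho r R) ⟨rho_pos hr hR, (rho_le hr).trans hr2⟩ b
    · exact (hgt (by linarith)).trans_lt (PL.lenp (3 * r) ⟨by positivity, hr2⟩ b)
  · -- the margin
    set s' := min s (3 * r) with hs'
    have hs0 : 0 < s' := lt_min hs (by positivity)
    obtain ⟨m, hm, hm2⟩ := PC.gap (pc_Pr F hD hB hdiam hP)
      (f := fun p : Pr e D × ℝ => enB e Lam Y p.1 p.2) (map_enB F PL.flow PL.fld)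
      (K := Icc s' (3 * r)) isCompact_Icc (c := 2 * D) (fun b ρ hρ =>
        hen ρ ⟨hs0.trans_le hρ.1, hρ.2.trans hr2⟩ b)
    have key : ∀ b, ∀ ρ ∈ Icc s' (3 * r),
        eVariationOn (fun t => poP e Y ρ (Lam (b, t))) (Icc 0 (2 * D)) ≤
          ENNReal.ofReal ((m + 2 * D) / 2) := by
      intro b ρ hρ
      refine (variation_le (contMDiff_loopP F PL.flow PL.fld b ρ) (by positivity)).trans ?_
      refine ENNReal.ofReal_le_ofReal ?_
      have := hm2 b ρ hρ
      change enB e Lam Y b ρ < m at this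
      unfold enB at this
      linarith
    refine ⟨(m + 2 * D) / 2, by linarith, fun b R hR => ?_⟩
    have hR0 : 0 < R := hs.trans_le hR
    rcases lt_or_ge R (1 / 2) with h | h
    · rw [hlt hR0 h]
      refine key b _ ⟨?_, rho_le hr⟩
      unfold rho
      have h7 := Real.smoothTransition.nonneg ((R - 2 * r) / r)
      have h8 := Real.smoothTransition.le_one ((R - 2 * r) / r)
      have h9 : s' ≤ R := (min_le_left _ _).trans hR
      have h10 : s' ≤ 3 * r := min_le_right _ _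
      nlinarith
    · exact (hgt (by linarith)).trans (key b _ ⟨min_le_right _ _, le_rfl⟩)

/-! ### the push-off of the negative directions -/

section Fam

variable {ι : Type} [Fintype ι] [DecidableEq ι]
variable {F : Facts e} {hD : 0 < D} {hB : InjGE e D} {hdiam : ∀ p q : M, dist p q ≤ D}
  {l : ℕ} {X δ : ι → UT E M → E} {ε : ℝ}

/-- the push-off, with the energies -/
theorem exists_pushL_en (hP : ∀ x y : M, dist x y = D → finrank ℝ (H775.Pl e D x y) = l + 1)
    (h : S2N.Fam F hD hB hdiam l X δ ε) : ∃ ε₀ : ℝ,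
    PushL F hD hB hdiam (Lam hP h) (Yb F hD hB hdiam X δ ε) ε₀ ∧
      EnLt e (Lam hP h) (Yb F hD hB hdiam X δ ε) ε₀ := by
  obtain ⟨ε₀, hε₀, h3⟩ := (pc_Pr F hD hB hdiam hP).unif_lt_abs (fun b => const_at_Pr b 0)
    (f := fun p : Pr e D × ℝ => enB e (Lam hP h) (Yb F hD hB hdiam X δ ε) p.1 p.2)
    (map_enB F (isFlow_Lam hP h) (fld_Yb hP h)) (enB_deriv hP h) (fun b => by
      have h1 := enB_deriv2 hP h b
      have h2 := h.eps_pos b.v
      linarith)
  have h4 : EnLt e (Lam hP h) (Yb F hD hB hdiam X δ ε) ε₀ := by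
    intro ρ hρ b
    have h4 := h3 ρ hρ.1.ne' (by rw [abs_of_pos hρ.1]; exact hρ.2) b
    simp only at h4
    rwa [enB_zero F (Lam_v hP h)] at h4
  exact ⟨ε₀, ⟨isFlow_Lam hP h, Lam_v hP h, Lam_neg hP h, Lam_half hP h, fld_Yb hP h, Yb_neg,
    Yb_sgn hP h, hε₀, fun ρ hρ b => variation_lt
      (contMDiff_loopP F (isFlow_Lam hP h) (fld_Yb hP h) b ρ) hD (h4 ρ hρ b)⟩, h4⟩

end Fam

end

end Vale.Agent.P231.S3Y
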