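import Vale.Agent.P231.S3Y.Y
import Vale.Agent.P231.S3Y.Marg
import Vale.Agent.P231.S3S.Std
import Vale.Agent.P231.S3U.Spd
import Vale.Agent.P231.S3N.Cpt
import Vale.Agent.P231.S3N.E1

/-!
# P231, stage 3, S3-Y: the doubled loops pushed in the directions of `ξ` and `E'`; energies
-/

set_option maxSynthPendingDepth 3
set_option linter.unusedSectionVars false
set_option linter.unusedVariables false

open Bundle Manifold Set Filter Module MeasureTheory
open scoped ContDiff Manifold Topology ENNReal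

namespace Vale.Agent.P231.S3Y

noncomputable section

open Vale.Agent.P234 Vale.Agent.P231 Vale.Agent.P231.Fm Vale.Agent.P231.W Vale.Agent.P231.WR
open Vale.Agent.P231.WF Vale.Agent.P231.H766 Vale.Agent.P231.S2N Vale.Agent.P231.S3S

variable {E : Type*} [NormedAddCommGroup E] [NormedSpace ℝ E]
  {M : Type*} [MetricSpace M] [ChartedSpace E M]
  [RiemannianBundle (fun x : M => TangentSpace 𝓘(ℝ, E) x)]
  {e : ∀ x : M, TangentSpace 𝓘(ℝ, E) x → M}
  [FiniteDimensional ℝ E] [IsManifold 𝓘(ℝ, E) ∞ M]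
  [IsContMDiffRiemannianBundle 𝓘(ℝ, E) ∞ E (fun x : M => TangentSpace 𝓘(ℝ, E) x)]
  [CompactSpace M] [ConnectedSpace M] [IsRiemannianManifold 𝓘(ℝ, E) M]

variable {D : ℝ} {ι : Type} [Fintype ι] [DecidableEq ι]

/-- the parameter space of the pushes -/
abbrev Wp (ι : Type) [Fintype ι] : Type :=
  EuclideanSpace ℝ ι × (EuclideanSpace ℝ ι × EuclideanSpace ℝ ι)

/-- the point pushed by `a` in the directions of `ξ`, by `(x, y)` in the directions of `E'` -/
def gY (e : ∀ x : M, TangentSpace 𝓘(ℝ, E) x → M) (X Pc Ps : ι → UT E M → E) (v : UT E M)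
    (p : Wp ι) : M :=
  e (foot v) (XX X p.1 v + (XX Pc p.2.1 v + XX Ps p.2.2 v) : E)

variable {X Pc Ps : ι → UT E M → E}

theorem at_gY (F : Facts e) (hX : ∀ i, Fld (X i)) (hc : ∀ i, Fld (Pc i)) (hs : ∀ i, Fld (Ps i))
    {E' : Type} [NormedAddCommGroup E'] [NormedSpace ℝ E'] [FiniteDimensional ℝ E']
    {u : E' → UT E M} {a x y : E' → EuclideanSpace ℝ ι} {z : E'} (hu : (dUT E M).At u z)
    (ha : Sm a z) (hx : Sm x z) (hy : Sm y z) :
    (dM E M).At (fun s => gY e X Pc Ps (u s) (a s, (x s, y s))) z := by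
  have h1 := at_add (f := fun s => foot (u s)) (at_XX hX hu ha)
    (at_add (f := fun s => foot (u s)) (at_XX hc hu hx) (at_XX hs hu hy))
  change ∀ᶠ s in 𝓝 z, H775.SmV (fun s => foot (u s))
    (fun s => (XX X (a s) (u s) + (XX Pc (x s) (u s) + XX Ps (y s) (u s)) : E)) s at h1
  change ∀ᶠ s in 𝓝 z, ContMDiffAt _ _ _ _ _
  filter_upwards [h1] with s hs1
  exact hs1.exp F.isExp

/-- rotation of the parameters along the doubled circle -/
def rW (D : ℝ) (p : Wp ι) (t : ℝ) : Wp ι :=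
  (p.1, (rx (om D * t) p.2.1 p.2.2, ry (om D * t) p.2.1 p.2.2))

theorem rW_zero (p : Wp ι) : rW D p 0 = p := by
  unfold rW
  rw [mul_zero, rx_zero, ry_zero]

theorem rW_add (p : Wp ι) (s t : ℝ) : rW D (rW D p s) t = rW D p (s + t) := by
  unfold rW
  simp only [rx_add, ry_add, mul_add]

/-- the pushed doubled loops -/
def kY (F : Facts e) (D : ℝ) (X Pc Ps : ι → UT E M → E) (q : (UT E M × Wp ι) × ℝ) : M :=
  gY e X Pc Ps (phi F (q.1.1, q.2)) (rW D q.1.2 q.2)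

theorem map_kY (F : Facts e) (hX : ∀ i, Fld (X i)) (hc : ∀ i, Fld (Pc i)) (hs : ∀ i, Fld (Ps i)) :
    (((dUT E M).prod (Dif.lin (Wp ι))).prod (Dif.lin ℝ)).Map (dM E M) (kY F D X Pc Ps) := by
  intro E' _ _ _ u z hu
  have h1 : (dUT E M).At (fun s => (u s).1.1) z := hu.1.1
  have h2 : Sm (fun s => (u s).1.2) z := hu.1.2
  have h3 : Sm (fun s => (u s).2) z := hu.2
  have h4 : Sm (fun s => om D * (u s).2) z := by
    filter_upwards [h3] with q hq using contDiffAt_const.mul hq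
  have ha : Sm (fun s => (u s).1.2.1) z :=
    Sm.comp (f := fun w : Wp ι => w.1) (Sm.of_contDiff contDiff_fst _) h2
  have hp : Sm (fun s => (u s).1.2.2) z :=
    Sm.comp (f := fun w : Wp ι => w.2) (Sm.of_contDiff contDiff_snd _) h2
  have hx : Sm (fun s => (u s).1.2.2.1) z :=
    Sm.comp (f := fun w : EuclideanSpace ℝ ι × EuclideanSpace ℝ ι => w.1)
      (Sm.of_contDiff contDiff_fst _) hp
  have hy : Sm (fun s => (u s).1.2.2.2) z :=
    Sm.comp (f := fun w : EuclideanSpace ℝ ι × EuclideanSpace ℝ ι => w.2)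
      (Sm.of_contDiff contDiff_snd _) hp
  exact at_gY F hX hc hs (map_phi F (u := fun s => ((u s).1.1, (u s).2)) ⟨h1, h3⟩) ha
    (sm_rx h4 hx hy) (sm_ry h4 hx hy)

theorem kY_add (F : Facts e) (v : UT E M) (p : Wp ι) (s t : ℝ) :
    kY F D X Pc Ps ((phi F (v, s), rW D p s), t) = kY F D X Pc Ps ((v, p), s + t) := by
  unfold kY
  simp only [rW_add, phi_add]

/-- the squared speeds of the pushed doubled loops -/
def sY (F : Facts e) (D : ℝ) (X Pc Ps : ι → UT E M → E) (q : (UT E M × Wp ι) × ℝ) : ℝ :=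
  nm (kY F D X Pc Ps q) (WC.vl (fun t => kY F D X Pc Ps (q.1, t)) q.2 : E) ^ 2

/-- the energies of the pushed doubled loops -/
def eY (F : Facts e) (D : ℝ) (X Pc Ps : ι → UT E M → E) (q : UT E M × Wp ι) : ℝ :=
  ∫ t in (0 : ℝ)..(4 * D), sY F D X Pc Ps (q, t)

theorem map_sY (F : Facts e) (hX : ∀ i, Fld (X i)) (hc : ∀ i, Fld (Pc i)) (hs : ∀ i, Fld (Ps i)) :
    (((dUT E M).prod (Dif.lin (Wp ι))).prod (Dif.lin ℝ)).Map (Dif.lin ℝ) (sY F D X Pc Ps) :=
  WC.map_nm_sq (H997.MV_dv (E := E) (H := kY F D X Pc Ps) (map_kY F hX hc hs))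

theorem map_eY (F : Facts e) (hX : ∀ i, Fld (X i)) (hc : ∀ i, Fld (Pc i)) (hs : ∀ i, Fld (Ps i)) :
    ((dUT E M).prod (Dif.lin (Wp ι))).Map (Dif.lin ℝ) (eY F D X Pc Ps) :=
  map_integral (map_sY (D := D) F hX hc hs) (4 * D)

/-- the pushed doubled loops are smooth -/
theorem cmd_kY (F : Facts e) (hX : ∀ i, Fld (X i)) (hc : ∀ i, Fld (Pc i)) (hs : ∀ i, Fld (Ps i))
    (v : UT E M) (p : Wp ι) :
    ContMDiff 𝓘(ℝ, ℝ) 𝓘(ℝ, E) ∞ (fun t : ℝ => kY F D X Pc Ps ((v, p), t)) := fun t => by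
  have h1 : (dM E M).At (fun t : ℝ => kY F D X Pc Ps ((v, p), t)) t :=
    map_kY F hX hc hs (u := fun t : ℝ => ((v, p), t))
      ⟨⟨H583.at_const v t, Sm.of_contDiff (contDiff_const (c := p)) _⟩,
        Sm.of_contDiff contDiff_id _⟩
  exact Filter.Eventually.self_of_nhds (show ∀ᶠ z in 𝓝 t, ContMDiffAt 𝓘(ℝ, ℝ) 𝓘(ℝ, E) ∞
        (fun t : ℝ => kY F D X Pc Ps ((v, p), t)) z from h1)

/-- the speeds are invariant under the flow -/
theorem sY_add (F : Facts e) (hX : ∀ i, Fld (X i)) (hc : ∀ i, Fld (Pc i)) (hs : ∀ i, Fld (Ps i))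
    (v : UT E M) (p : Wp ι) (t : ℝ) :
    sY F D X Pc Ps ((phi F (v, t), rW D p t), 0) = sY F D X Pc Ps ((v, p), t) := by
  have e1 : (fun s => kY F D X Pc Ps ((phi F (v, t), rW D p t), s)) =
      fun s => (fun s => kY F D X Pc Ps ((v, p), s)) (t + s) := by
    funext s
    exact kY_add F v p t s
  have h2 : (WC.vl (fun s => kY F D X Pc Ps ((phi F (v, t), rW D p t), s)) 0 : E) =
      WC.vl (fun s => kY F D X Pc Ps ((v, p), s)) (t + 0) := by
    rw [e1]
    have h3 := H997.dv_comp (E := E) (c := fun s => kY F D X Pc Ps ((v, p), s)) (t := 0)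
      (g := fun s => t + s) (g' := 1) ((cmd_kY F hX hc hs v p).mdifferentiable (by simp) (t + 0))
      (by simpa using (hasDerivAt_id (0 : ℝ)).const_add t)
    rw [one_smul] at h3
    exact h3
  unfold sY
  simp only
  rw [h2, kY_add F v p t 0, add_zero]

/-- **(S3-A)** the fields in the directions of `E'`: the pushed doubled loops are shorter than the
doubled geodesics -/
structure PhF (F : Facts e) (D : ℝ) (X δ : ι → UT E M → E) (ε : ℝ) (Pc Ps : ι → UT E M → E)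
    (ε₁ : ℝ) : Prop where
  fc : ∀ i, Fld (Pc i)
  fs : ∀ i, Fld (Ps i)
  pos : 0 < ε₁
  en : ∀ (v : UT E M) (a x y : EuclideanSpace ℝ ι), Pm F D X δ ε v a = a → Pm F D X δ ε v x = x →
    Pm F D X δ ε v y = y → (a, (x, y)) ≠ (0, (0, 0)) → ‖a‖ ≤ ε₁ → ‖x‖ ≤ ε₁ → ‖y‖ ≤ ε₁ →
    eY F D X Pc Ps (v, (a, (x, y))) < 4 * D

end

end Vale.Agent.P231.S3Y
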