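import Vale.Agent.P231.S3S.Xi

/-!
# P231, stage 3, S3-Y: the sphere bundle of `E' = L^{1/2} ⊗ ξ` and the space
`Y = D(ξ) ×_{UT} S(E')`, with the doubled circle action

`SE` is the space of the `(v, z)`, `z = (x, y)` a unit vector of `Em v × Em v`; the circle of length
`4 D` acts by the geodesic flow on `v` and by the rotation `e^{i ω t}`, `ω = π / (2 D)`, on `z`.
`YY` is the space of the `(v, a, z)`, `a ∈ Em v`.
-/

set_option maxSynthPendingDepth 3
set_option linter.unusedSectionVars false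
set_option linter.unusedVariables false

open Bundle Manifold Set Filter Module MeasureTheory
open scoped ContDiff Manifold Topology ENNReal

namespace Vale.Agent.P231.S3Y

noncomputable section

open Vale.Agent.P234 Vale.Agent.P231 Vale.Agent.P231.Fm Vale.Agent.P231.W Vale.Agent.P231.WR
open Vale.Agent.P231.WF Vale.Agent.P231.H766 Vale.Agent.P231.S2N Vale.Agent.P231.S3S

/-! ### the circle action of a flow -/

/-- the circle action of period one of a periodic flow -/
def actOf {Z : Type*} {DZ : Dif Z} {T : ℝ} {Φ : Z × ℝ → Z} (h : IsFlow DZ T Φ) : CAct DZ where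
  φ b t := Φ (b, T * t)
  smooth := fun {E'} _ _ _ {u x} hu => h.map (map_scale (D := DZ) T hu)
  zero b := by rw [mul_zero, h.zero]
  add b s t := by rw [h.add, mul_add]
  per b := by rw [mul_one, h.per]

/-! ### rotation of pairs of vectors -/

section Rot

variable {V : Type*} [NormedAddCommGroup V] [InnerProductSpace ℝ V]

/-- the first component of `e^{i θ} (x + i y)` -/
def rx (θ : ℝ) (x y : V) : V := Real.cos θ • x - Real.sin θ • y

/-- the second component of `e^{i θ} (x + i y)` -/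
def ry (θ : ℝ) (x y : V) : V := Real.sin θ • x + Real.cos θ • y

theorem rx_zero (x y : V) : rx 0 x y = x := by simp [rx]

theorem ry_zero (x y : V) : ry 0 x y = y := by simp [ry]

theorem rx_add (s t : ℝ) (x y : V) : rx t (rx s x y) (ry s x y) = rx (s + t) x y := by
  simp only [rx, ry, Real.cos_add, Real.sin_add]
  module

theorem ry_add (s t : ℝ) (x y : V) : ry t (rx s x y) (ry s x y) = ry (s + t) x y := by
  simp only [rx, ry, Real.cos_add, Real.sin_add]
  module

theorem rx_two_pi (x y : V) : rx (2 * Real.pi) x y = x := by simp [rx]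

theorem ry_two_pi (x y : V) : ry (2 * Real.pi) x y = y := by simp [ry]

theorem rot_unit (θ : ℝ) (x y : V) : ‖rx θ x y‖ ^ 2 + ‖ry θ x y‖ ^ 2 = ‖x‖ ^ 2 + ‖y‖ ^ 2 := by
  unfold rx ry
  rw [norm_sub_sq_real, norm_add_sq_real, norm_smul, norm_smul, norm_smul, norm_smul,
    real_inner_smul_left, real_inner_smul_right, real_inner_smul_left, real_inner_smul_right,
    mul_pow, mul_pow, mul_pow, mul_pow, Real.norm_eq_abs, Real.norm_eq_abs, sq_abs, sq_abs]
  linear_combination (‖x‖ ^ 2 + ‖y‖ ^ 2) * Real.sin_sq_add_cos_sq θ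

theorem rx_smul (c θ : ℝ) (x y : V) : rx θ (c • x) (c • y) = c • rx θ x y := by
  simp only [rx]
  module

theorem ry_smul (c θ : ℝ) (x y : V) : ry θ (c • x) (c • y) = c • ry θ x y := by
  simp only [ry]
  module

theorem map_rot (P : V →L[ℝ] V) (θ : ℝ) {x y : V} (hx : P x = x) (hy : P y = y) :
    P (rx θ x y) = rx θ x y ∧ P (ry θ x y) = ry θ x y := by
  constructor
  · rw [rx, map_sub, map_smul, map_smul, hx, hy]
  · rw [ry, map_add, map_smul, map_smul, hx, hy]

theorem sm_rx {W : Type*} [NormedAddCommGroup W] [NormedSpace ℝ W] {θ : W → ℝ} {x y : W → V}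
    {s : W} (hθ : Sm θ s) (hx : Sm x s) (hy : Sm y s) : Sm (fun q => rx (θ q) (x q) (y q)) s := by
  filter_upwards [hθ, hx, hy] with q h1 h2 h3
  exact ((Real.contDiff_cos.contDiffAt.comp q h1).smul h2).sub
    ((Real.contDiff_sin.contDiffAt.comp q h1).smul h3)

theorem sm_ry {W : Type*} [NormedAddCommGroup W] [NormedSpace ℝ W] {θ : W → ℝ} {x y : W → V}
    {s : W} (hθ : Sm θ s) (hx : Sm x s) (hy : Sm y s) : Sm (fun q => ry (θ q) (x q) (y q)) s := by
  filter_upwards [hθ, hx, hy] with q h1 h2 h3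
  exact ((Real.contDiff_sin.contDiffAt.comp q h1).smul h2).add
    ((Real.contDiff_cos.contDiffAt.comp q h1).smul h3)

end Rot

/-- the angular velocity of the doubled circle -/
def om (D : ℝ) : ℝ := Real.pi / (2 * D)

theorem om_per {D : ℝ} (hD : 0 < D) : om D * (4 * D) = 2 * Real.pi := by
  unfold om
  field_simp
  ring

theorem om_half {D : ℝ} (hD : 0 < D) : om D * (2 * D) = Real.pi := by
  unfold om
  field_simp

variable {E : Type*} [NormedAddCommGroup E] [NormedSpace ℝ E]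
  {M : Type*} [MetricSpace M] [ChartedSpace E M]
  [RiemannianBundle (fun x : M => TangentSpace 𝓘(ℝ, E) x)]
  {e : ∀ x : M, TangentSpace 𝓘(ℝ, E) x → M}
  [FiniteDimensional ℝ E] [IsManifold 𝓘(ℝ, E) ∞ M]
  [IsContMDiffRiemannianBundle 𝓘(ℝ, E) ∞ E (fun x : M => TangentSpace 𝓘(ℝ, E) x)]
  [CompactSpace M] [ConnectedSpace M] [IsRiemannianManifold 𝓘(ℝ, E) M]

variable {D : ℝ} {ι : Type} [Fintype ι] [DecidableEq ι]

/-! ### the sphere bundle -/

/-- the unit sphere bundle of `E' = L^{1/2} ⊗ ξ` -/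
@[ext]
structure SE (F : Facts e) (D : ℝ) (X δ : ι → UT E M → E) (ε : ℝ) where
  /-- the geodesic -/
  v : UT E M
  /-- the real part -/
  x : EuclideanSpace ℝ ι
  /-- the imaginary part -/
  y : EuclideanSpace ℝ ι
  px : Pm F D X δ ε v x = x
  py : Pm F D X δ ε v y = y
  unit : ‖x‖ ^ 2 + ‖y‖ ^ 2 = 1

/-- the space of the `(v, a, z)` -/
@[ext]
structure YY (F : Facts e) (D : ℝ) (X δ : ι → UT E M → E) (ε : ℝ) where
  /-- the geodesic -/
  v : UT E M
  /-- the negative direction -/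
  a : EuclideanSpace ℝ ι
  /-- the real part -/
  x : EuclideanSpace ℝ ι
  /-- the imaginary part -/
  y : EuclideanSpace ℝ ι
  pa : Pm F D X δ ε v a = a
  px : Pm F D X δ ε v x = x
  py : Pm F D X δ ε v y = y
  unit : ‖x‖ ^ 2 + ‖y‖ ^ 2 = 1

variable {F : Facts e} {hD : 0 < D} {hB : InjGE e D} {hdiam : ∀ p q : M, dist p q ≤ D}
  {l : ℕ} {X δ : ι → UT E M → E} {ε : ℝ}

/-- the diffeology of the sphere bundle -/
def dSE (F : Facts e) (D : ℝ) (X δ : ι → UT E M → E) (ε : ℝ) : Dif (SE F D X δ ε) :=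
  ((dUT E M).prod (Dif.lin (EuclideanSpace ℝ ι × EuclideanSpace ℝ ι))).ind
    fun p => (p.v, (p.x, p.y))

/-- the diffeology of `Y` -/
def dYY (F : Facts e) (D : ℝ) (X δ : ι → UT E M → E) (ε : ℝ) : Dif (YY F D X δ ε) :=
  ((dUT E M).prod (Dif.lin (EuclideanSpace ℝ ι ×
    (EuclideanSpace ℝ ι × EuclideanSpace ℝ ι)))).ind fun p => (p.v, (p.a, (p.x, p.y)))

theorem at_SE {E' : Type} [NormedAddCommGroup E'] [NormedSpace ℝ E'] [FiniteDimensional ℝ E']
    {u : E' → SE F D X δ ε} {s : E'} : (dSE F D X δ ε).At u s ↔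
      (dUT E M).At (fun q => (u q).v) s ∧ Sm (fun q => (u q).x) s ∧ Sm (fun q => (u q).y) s := by
  constructor
  · intro h
    have h2 : Sm (fun q => ((u q).x, (u q).y)) s := h.2
    exact ⟨h.1, Sm.comp (f := Prod.fst) (Sm.of_contDiff contDiff_fst _) h2,
      Sm.comp (f := Prod.snd) (Sm.of_contDiff contDiff_snd _) h2⟩
  · rintro ⟨h1, h2, h3⟩
    exact ⟨h1, h2.prodMk h3⟩

theorem at_YY {E' : Type} [NormedAddCommGroup E'] [NormedSpace ℝ E'] [FiniteDimensional ℝ E']
    {u : E' → YY F D X δ ε} {s : E'} : (dYY F D X δ ε).At u s ↔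
      (dUT E M).At (fun q => (u q).v) s ∧ Sm (fun q => (u q).a) s ∧ Sm (fun q => (u q).x) s ∧
        Sm (fun q => (u q).y) s := by
  constructor
  · intro h
    have h2 : Sm (fun q => ((u q).a, ((u q).x, (u q).y))) s := h.2
    have h3 : Sm (fun q => ((u q).x, (u q).y)) s :=
      Sm.comp (f := Prod.snd) (Sm.of_contDiff contDiff_snd _) h2
    exact ⟨h.1, Sm.comp (f := Prod.fst) (Sm.of_contDiff contDiff_fst _) h2,
      Sm.comp (f := Prod.fst) (Sm.of_contDiff contDiff_fst _) h3,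
      Sm.comp (f := Prod.snd) (Sm.of_contDiff contDiff_snd _) h3⟩
  · rintro ⟨h1, h2, h3, h4⟩
    exact ⟨h1, h2.prodMk (h3.prodMk h4)⟩

theorem map_SE_v : (dSE F D X δ ε).Map (dUT E M) SE.v := fun h => (at_SE.1 h).1

theorem map_SE_x : (dSE F D X δ ε).Map (Dif.lin (EuclideanSpace ℝ ι)) SE.x :=
  fun h => (at_SE.1 h).2.1

theorem map_SE_y : (dSE F D X δ ε).Map (Dif.lin (EuclideanSpace ℝ ι)) SE.y :=
  fun h => (at_SE.1 h).2.2

theorem map_YY_v : (dYY F D X δ ε).Map (dUT E M) YY.v := fun h => (at_YY.1 h).1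

theorem map_YY_a : (dYY F D X δ ε).Map (Dif.lin (EuclideanSpace ℝ ι)) YY.a :=
  fun h => (at_YY.1 h).2.1

theorem map_YY_x : (dYY F D X δ ε).Map (Dif.lin (EuclideanSpace ℝ ι)) YY.x :=
  fun h => (at_YY.1 h).2.2.1

theorem map_YY_y : (dYY F D X δ ε).Map (Dif.lin (EuclideanSpace ℝ ι)) YY.y :=
  fun h => (at_YY.1 h).2.2.2

theorem at_const_SE (p : SE F D X δ ε) {V : Type} [NormedAddCommGroup V] [NormedSpace ℝ V]
    [FiniteDimensional ℝ V] (s : V) : (dSE F D X δ ε).At (fun _ : V => p) s :=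
  at_SE.2 ⟨H583.at_const p.v s, Sm.of_contDiff (contDiff_const (c := p.x)) _,
    Sm.of_contDiff (contDiff_const (c := p.y)) _⟩

theorem at_const_YY (p : YY F D X δ ε) {V : Type} [NormedAddCommGroup V] [NormedSpace ℝ V]
    [FiniteDimensional ℝ V] (s : V) : (dYY F D X δ ε).At (fun _ : V => p) s :=
  at_YY.2 ⟨H583.at_const p.v s, Sm.of_contDiff (contDiff_const (c := p.a)) _,
    Sm.of_contDiff (contDiff_const (c := p.x)) _, Sm.of_contDiff (contDiff_const (c := p.y)) _⟩

/-- the projection `(v, a, z) ↦ (v, a)` -/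
def toXi (p : YY F D X δ ε) : Xi F D X δ ε := ⟨p.v, p.a, p.pa⟩

/-- the projection `(v, a, z) ↦ (v, z)` -/
def toSE (p : YY F D X δ ε) : SE F D X δ ε := ⟨p.v, p.x, p.y, p.px, p.py, p.unit⟩

@[simp] theorem toXi_v (p : YY F D X δ ε) : (toXi p).v = p.v := rfl

@[simp] theorem toXi_a (p : YY F D X δ ε) : (toXi p).a = p.a := rfl

@[simp] theorem toSE_v (p : YY F D X δ ε) : (toSE p).v = p.v := rfl

@[simp] theorem toSE_x (p : YY F D X δ ε) : (toSE p).x = p.x := rfl

@[simp] theorem toSE_y (p : YY F D X δ ε) : (toSE p).y = p.y := rfl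

theorem map_toXi : (dYY F D X δ ε).Map (dXi F D X δ ε) toXi := fun h =>
  ⟨(at_YY.1 h).1, (at_YY.1 h).2.1⟩

theorem map_toSE : (dYY F D X δ ε).Map (dSE F D X δ ε) toSE := fun h =>
  at_SE.2 ⟨(at_YY.1 h).1, (at_YY.1 h).2.2⟩

/-! ### the flows -/

/-- the doubled flow on the sphere bundle -/
def flSE (F : Facts e) (hD : 0 < D) (hB : InjGE e D) (hdiam : ∀ p q : M, dist p q ≤ D)
    (X δ : ι → UT E M → E) (ε : ℝ) (q : SE F D X δ ε × ℝ) : SE F D X δ ε where
  v := phi F (q.1.v, q.2)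
  x := rx (om D * q.2) q.1.x q.1.y
  y := ry (om D * q.2) q.1.x q.1.y
  px := by
    rw [Fam.Pm_phi F hD hB hdiam]
    exact (map_rot _ _ q.1.px q.1.py).1
  py := by
    rw [Fam.Pm_phi F hD hB hdiam]
    exact (map_rot _ _ q.1.px q.1.py).2
  unit := (rot_unit _ _ _).trans q.1.unit

/-- the doubled flow on `Y` -/
def flYY (F : Facts e) (hD : 0 < D) (hB : InjGE e D) (hdiam : ∀ p q : M, dist p q ≤ D)
    (X δ : ι → UT E M → E) (ε : ℝ) (q : YY F D X δ ε × ℝ) : YY F D X δ ε where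
  v := phi F (q.1.v, q.2)
  a := q.1.a
  x := rx (om D * q.2) q.1.x q.1.y
  y := ry (om D * q.2) q.1.x q.1.y
  pa := by rw [Fam.Pm_phi F hD hB hdiam, q.1.pa]
  px := by
    rw [Fam.Pm_phi F hD hB hdiam]
    exact (map_rot _ _ q.1.px q.1.py).1
  py := by
    rw [Fam.Pm_phi F hD hB hdiam]
    exact (map_rot _ _ q.1.px q.1.py).2
  unit := (rot_unit _ _ _).trans q.1.unit

theorem phi_four (F : Facts e) (hD : 0 < D) (hB : InjGE e D)
    (hdiam : ∀ p q : M, dist p q ≤ D) (v : UT E M) : phi F (v, 4 * D) = v := by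
  have h1 := W.phi_per F hD hB hdiam v
  have h2 := phi_add F v (2 * D) (2 * D)
  rw [h1, h1, show 2 * D + 2 * D = 4 * D by ring] at h2
  exact h2.symm

section Fl

variable (F : Facts e) (hD : 0 < D) (hB : InjGE e D)
    (hdiam : ∀ p q : M, dist p q ≤ D) (X δ : ι → UT E M → E) (ε : ℝ)

@[simp] theorem flSE_v (q : SE F D X δ ε × ℝ) :
    (flSE F hD hB hdiam X δ ε q).v = phi F (q.1.v, q.2) := rfl

@[simp] theorem flSE_x (q : SE F D X δ ε × ℝ) :
    (flSE F hD hB hdiam X δ ε q).x = rx (om D * q.2) q.1.x q.1.y := rfl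

@[simp] theorem flSE_y (q : SE F D X δ ε × ℝ) :
    (flSE F hD hB hdiam X δ ε q).y = ry (om D * q.2) q.1.x q.1.y := rfl

@[simp] theorem flYY_v (q : YY F D X δ ε × ℝ) :
    (flYY F hD hB hdiam X δ ε q).v = phi F (q.1.v, q.2) := rfl

@[simp] theorem flYY_a (q : YY F D X δ ε × ℝ) : (flYY F hD hB hdiam X δ ε q).a = q.1.a := rfl

@[simp] theorem flYY_x (q : YY F D X δ ε × ℝ) :
    (flYY F hD hB hdiam X δ ε q).x = rx (om D * q.2) q.1.x q.1.y := rfl

@[simp] theorem flYY_y (q : YY F D X δ ε × ℝ) :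
    (flYY F hD hB hdiam X δ ε q).y = ry (om D * q.2) q.1.x q.1.y := rfl

theorem toXi_flYY (q : YY F D X δ ε × ℝ) : toXi (flYY F hD hB hdiam X δ ε q) =
    flXi F hD hB hdiam X δ ε (toXi q.1, q.2) := rfl

theorem toSE_flYY (q : YY F D X δ ε × ℝ) : toSE (flYY F hD hB hdiam X δ ε q) =
    flSE F hD hB hdiam X δ ε (toSE q.1, q.2) := rfl

theorem isFlow_flSE : IsFlow (dSE F D X δ ε) (4 * D) (flSE F hD hB hdiam X δ ε) where
  map := by
    intro E' _ _ _ u s hu
    obtain ⟨h1, h2, h3⟩ := at_SE.1 hu.1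
    have h4 : Sm (fun q => (u q).2) s := hu.2
    have h5 : Sm (fun q => om D * (u q).2) s := by
      filter_upwards [h4] with q hq using contDiffAt_const.mul hq
    exact at_SE.2 ⟨map_phi F (u := fun s => ((u s).1.v, (u s).2)) ⟨h1, h4⟩, sm_rx h5 h2 h3,
      sm_ry h5 h2 h3⟩
  zero p := SE.ext (phi_zero F p.v) (by simp [rx_zero]) (by simp [ry_zero])
  add p s t := SE.ext (phi_add F p.v s t) (by simp [rx_add, mul_add]) (by simp [ry_add, mul_add])
  per p := SE.ext (phi_four F hD hB hdiam p.v) (by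
      rw [flSE_x]
      simp only
      rw [om_per hD, rx_two_pi]) (by
      rw [flSE_y]
      simp only
      rw [om_per hD, ry_two_pi])

theorem isFlow_flYY : IsFlow (dYY F D X δ ε) (4 * D) (flYY F hD hB hdiam X δ ε) where
  map := by
    intro E' _ _ _ u s hu
    obtain ⟨h1, h0, h2, h3⟩ := at_YY.1 hu.1
    have h4 : Sm (fun q => (u q).2) s := hu.2
    have h5 : Sm (fun q => om D * (u q).2) s := by
      filter_upwards [h4] with q hq using contDiffAt_const.mul hq
    exact at_YY.2 ⟨map_phi F (u := fun s => ((u s).1.v, (u s).2)) ⟨h1, h4⟩, h0, sm_rx h5 h2 h3,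
      sm_ry h5 h2 h3⟩
  zero p := YY.ext (phi_zero F p.v) rfl (by simp [rx_zero]) (by simp [ry_zero])
  add p s t := YY.ext (phi_add F p.v s t) rfl (by simp [rx_add, mul_add])
    (by simp [ry_add, mul_add])
  per p := YY.ext (phi_four F hD hB hdiam p.v) rfl (by
      rw [flYY_x]
      simp only
      rw [om_per hD, rx_two_pi]) (by
      rw [flYY_y]
      simp only
      rw [om_per hD, ry_two_pi])

end Fl

end

end Vale.Agent.P231.S3Y
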