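import Vale.Agent.P231.S3Y.TotM

/-!
# P231, stage 3, S3-Y: the total space: scalar multiplication, the norm, the speeds near the
zero section
-/

set_option maxSynthPendingDepth 3
set_option linter.unusedSectionVars false
set_option linter.unusedVariables false

open Bundle Manifold Set Filter Module MeasureTheory
open scoped ContDiff Manifold Topology ENNReal

namespace Vale.Agent.P231.S3Y

noncomputable section

open Vale.Agent.P234 Vale.Agent.P231 Vale.Agent.P231.Fm Vale.Agent.P231.W Vale.Agent.P231.WR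
open Vale.Agent.P231.WF Vale.Agent.P231.H766 Vale.Agent.P231.S2N Vale.Agent.P231.S3S

variable {E : Type*} [NormedAddCommGroup E] [NormedSpace ℝ E]
  {M : Type*} [MetricSpace M] [ChartedSpace E M]
  [RiemannianBundle (fun x : M => TangentSpace 𝓘(ℝ, E) x)]
  {e : ∀ x : M, TangentSpace 𝓘(ℝ, E) x → M}
  [FiniteDimensional ℝ E] [IsManifold 𝓘(ℝ, E) ∞ M]
  [IsContMDiffRiemannianBundle 𝓘(ℝ, E) ∞ E (fun x : M => TangentSpace 𝓘(ℝ, E) x)]
  [CompactSpace M] [ConnectedSpace M] [IsRiemannianManifold 𝓘(ℝ, E) M]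

variable {D : ℝ} {ι : Type} [Fintype ι] [DecidableEq ι]

variable {F : Facts e} {hD : 0 < D} {hB : InjGE e D} {hdiam : ∀ p q : M, dist p q ≤ D}
  {l : ℕ} {X δ Pc Ps : ι → UT E M → E} {ε r : ℝ} {C : Xi F D X δ ε → M}

/-! ### scalar multiplication -/

/-- multiplication of the vector by a number -/
def smT (c : ℝ) (p : TY F D X δ ε) : TY F D X δ ε where
  v := p.v
  a := c • p.a
  x := c • p.x
  y := c • p.y
  pa := by rw [map_smul, p.pa]
  px := by rw [map_smul, p.px]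
  py := by rw [map_smul, p.py]

theorem smT_v (c : ℝ) (p : TY F D X δ ε) : (smT c p).v = p.v := rfl

theorem smT_a (c : ℝ) (p : TY F D X δ ε) : (smT c p).a = c • p.a := rfl

theorem smT_x (c : ℝ) (p : TY F D X δ ε) : (smT c p).x = c • p.x := rfl

theorem smT_y (c : ℝ) (p : TY F D X δ ε) : (smT c p).y = c • p.y := rfl

theorem smT_w (c : ℝ) (p : TY F D X δ ε) : (smT c p).w = c • p.w := rfl

theorem smT_one (p : TY F D X δ ε) : smT 1 p = p :=
  TY.ext rfl (one_smul ℝ _) (one_smul ℝ _) (one_smul ℝ _)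

theorem map_smT {Y : Type*} {DY : Dif Y} {c : Y → ℝ} {g : Y → TY F D X δ ε}
    (hc : DY.Map (Dif.lin ℝ) c) (hg : DY.Map (dTY F D X δ ε) g) :
    DY.Map (dTY F D X δ ε) fun y => smT (c y) (g y) := by
  intro E' _ _ _ u s hu
  obtain ⟨h1, h2, h3, h4⟩ := at_TY.1 (hg hu)
  have h5 : Sm (fun q => c (u q)) s := hc hu
  refine at_TY.2 ⟨h1, ?_, ?_, ?_⟩
  · filter_upwards [h5, h2] with q k1 k2 using k1.smul k2
  · filter_upwards [h5, h3] with q k1 k2 using k1.smul k2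
  · filter_upwards [h5, h4] with q k1 k2 using k1.smul k2

theorem smT_flTY (c : ℝ) (p : TY F D X δ ε) (t : ℝ) : smT c (flTY F hD hB hdiam X δ ε (p, t)) =
    flTY F hD hB hdiam X δ ε (smT c p, t) :=
  TY.ext rfl rfl (rx_smul c (om D * t) p.x p.y).symm (ry_smul c (om D * t) p.x p.y).symm

/-! ### the norm -/

/-- the squared euclidean norm of the vector -/
def nsq (p : TY F D X δ ε) : ℝ := ‖p.a‖ ^ 2 + ‖p.x‖ ^ 2 + ‖p.y‖ ^ 2

theorem map_nsq : (dTY F D X δ ε).Map (Dif.lin ℝ) nsq := by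
  intro E' _ _ _ u s hu
  obtain ⟨h1, h2, h3, h4⟩ := at_TY.1 hu
  change Sm (fun q => ‖(u q).a‖ ^ 2 + ‖(u q).x‖ ^ 2 + ‖(u q).y‖ ^ 2) s
  filter_upwards [h2, h3, h4] with q k1 k2 k3
  exact ((k1.norm_sq ℝ).add (k2.norm_sq ℝ)).add (k3.norm_sq ℝ)

theorem nsq_nonneg (p : TY F D X δ ε) : 0 ≤ nsq p := by
  unfold nsq
  positivity

theorem nsq_smT (c : ℝ) (p : TY F D X δ ε) : nsq (smT c p) = c ^ 2 * nsq p := by
  unfold nsq
  rw [smT_a, smT_x, smT_y, norm_smul, norm_smul, norm_smul, mul_pow, mul_pow, mul_pow,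
    Real.norm_eq_abs, sq_abs]
  ring

theorem norm_w_le (p : TY F D X δ ε) {c : ℝ} : ‖p.w‖ ≤ c ↔ ‖p.a‖ ≤ c ∧ ‖p.x‖ ≤ c ∧ ‖p.y‖ ≤ c := by
  unfold TY.w
  rw [Prod.norm_def, max_le_iff, Prod.norm_def, max_le_iff]

theorem norm_w_sq_le (p : TY F D X δ ε) : ‖p.w‖ ^ 2 ≤ nsq p := by
  have h1 : ‖p.w‖ ≤ Real.sqrt (nsq p) := by
    rw [norm_w_le]
    unfold nsq
    refine ⟨Real.le_sqrt_of_sq_le ?_, Real.le_sqrt_of_sq_le ?_, Real.le_sqrt_of_sq_le ?_⟩ <;>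
      nlinarith [sq_nonneg ‖p.a‖, sq_nonneg ‖p.x‖, sq_nonneg ‖p.y‖]
  calc ‖p.w‖ ^ 2 ≤ Real.sqrt (nsq p) ^ 2 := pow_le_pow_left₀ (norm_nonneg _) h1 2
    _ = nsq p := Real.sq_sqrt (nsq_nonneg p)

theorem nsq_le (p : TY F D X δ ε) : nsq p ≤ 3 * ‖p.w‖ ^ 2 := by
  obtain ⟨h1, h2, h3⟩ := (norm_w_le p).1 le_rfl
  unfold nsq
  nlinarith [pow_le_pow_left₀ (norm_nonneg _) h1 2, pow_le_pow_left₀ (norm_nonneg _) h2 2,
    pow_le_pow_left₀ (norm_nonneg _) h3 2]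

theorem nsq_eq_zero {p : TY F D X δ ε} : nsq p = 0 ↔ p.w = 0 := by
  constructor
  · intro h
    have h1 := norm_w_sq_le p
    rw [h] at h1
    have h2 : ‖p.w‖ ^ 2 = 0 := le_antisymm h1 (by positivity)
    exact norm_eq_zero.1 (pow_eq_zero_iff two_ne_zero |>.1 h2)
  · intro h
    have h1 := nsq_le p
    rw [h, norm_zero] at h1
    exact le_antisymm (by simpa using h1) (nsq_nonneg p)

theorem wT_eq (hr : 0 < r) {w : Wp ι} (h : ‖w.1‖ ≤ r) : wT r w = w := by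
  unfold wT
  rw [chi_one hr h, one_smul, one_smul]

/-- the loops near the zero section -/
theorem cT_near (hr : 0 < r) {p : TY F D X δ ε} (h : ‖p.a‖ ≤ r) (t : ℝ) :
    cT F hD hB hdiam X δ ε C Pc Ps r p t = kY F D X Pc Ps ((p.v, p.w), 4 * D * t) := by
  have h4 : ‖p.a‖ ^ 2 < 3 * r ^ 2 := by nlinarith [norm_nonneg p.a]
  have h5 : CT C Pc Ps r (flTY F hD hB hdiam X δ ε (p, 4 * D * t)) =
      kY F D X Pc Ps ((p.v, wT r p.w), 4 * D * t) := CT_fl_lt h4 (4 * D * t)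
  have h6 : wT r p.w = p.w := wT_eq hr h
  rw [h6] at h5
  exact h5

/-! ### the speeds near the zero section -/

section Near

attribute [local instance] WF.topUT

/-- the speeds of the pushed doubled geodesics are close to one -/
theorem exists_sY_near (F : Facts e) (D : ℝ) (hX : ∀ i, Fld (X i)) (hc : ∀ i, Fld (Pc i))
    (hs : ∀ i, Fld (Ps i)) {η : ℝ} (hη : 0 < η) : ∃ r₁, 0 < r₁ ∧ ∀ (v : UT E M) (w : Wp ι),
      ‖w‖ ≤ r₁ → ∀ t, |sY F D X Pc Ps ((v, w), t) - 1| ≤ η := by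
  have h1 : ((dUT E M).prod (Dif.lin (Wp ι))).Map (Dif.lin ℝ)
      (fun q => sY F D X Pc Ps (q, 0)) := by
    intro E' _ _ _ u z hu
    exact map_sY (D := D) F hX hc hs (u := fun s => (u s, (0 : ℝ)))
      ⟨hu, Sm.of_contDiff contDiff_const z⟩
  have h2 : Continuous (fun q : UT E M × (ℝ × Wp ι) => sY F D X Pc Ps ((q.1, q.2.2), 0)) :=
    (S3N.cont_UT h1).comp (g := fun q : UT E M × Wp ι => sY F D X Pc Ps (q, 0))
      (f := fun q : UT E M × (ℝ × Wp ι) => (q.1, q.2.2))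
      (continuous_fst.prodMk (continuous_snd.comp continuous_snd))
  obtain ⟨ρ, hρ, h3⟩ := S3N.unif_UT h2 0 hη
  refine ⟨ρ / 2, by positivity, fun v w hw t => ?_⟩
  have hρ2 : 0 ≤ ρ := hρ.le
  have hw1 : ‖w.1‖ ≤ ρ / 2 := (norm_fst_le w).trans hw
  have hw2 : ‖w.2.1‖ ≤ ρ / 2 := (norm_fst_le w.2).trans ((norm_snd_le w).trans hw)
  have hw3 : ‖w.2.2‖ ≤ ρ / 2 := (norm_snd_le w.2).trans ((norm_snd_le w).trans hw)
  have h4 := rx_le (om D * t) (x := w.2.1) (y := w.2.2) hρ2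
    (by nlinarith [norm_nonneg w.2.1, norm_nonneg w.2.2])
  have h5 : ‖rW D w t‖ ≤ ρ := by
    unfold rW
    rw [Prod.norm_def, Prod.norm_def]
    exact max_le (hw1.trans (by linarith)) (max_le h4.1 h4.2)
  have h6 := h3 (phi F (v, t)) 0 (by rw [norm_zero]) (rW D w t) h5
  rw [Real.norm_eq_abs, sY_add F hX hc hs] at h6
  have h7 : sY F D X Pc Ps ((phi F (v, t), (0 : Wp ι)), 0) = 1 := by
    have e1 : (fun s => kY F D X Pc Ps ((phi F (v, t), (0, (0, 0))), s)) =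
        fun s => gm e (phi F (v, t), s) := funext fun s => kY_zero F X Pc Ps _ s
    have e2 : (WC.vl (fun s => gm e (phi F (v, t), s)) 0 : E) = vec' (phi F (phi F (v, t), 0)) :=
      mfderiv_gam F.isExp (foot (phi F (v, t))) (vec' (phi F (v, t))) 0
    change sY F D X Pc Ps ((phi F (v, t), (0, (0, 0))), 0) = 1
    unfold sY
    rw [e1, e2, kY_zero F]
    have h5 : nm (gm e (phi F (v, t), 0)) (vec' (phi F (phi F (v, t), 0))) = 1 :=
      nm_vec' (phi F (phi F (v, t), 0))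
    rw [h5, one_pow]
  rw [h7] at h6
  exact h6

end Near

/-- **the loops near the zero section have Lipschitz constant close to `4 D`** -/
theorem exists_lip_near (h : S2N.Fam F hD hB hdiam l X δ ε) (hr : 0 < r)
    (hc : ∀ i, Fld (Pc i)) (hs : ∀ i, Fld (Ps i)) {κ : ℝ} (hκ : 1 < κ) :
    ∃ r₁, 0 < r₁ ∧ r₁ ≤ r ∧ ∀ p : TY F D X δ ε, ‖p.w‖ ≤ r₁ → ∀ s t : ℝ,
      dist (cT F hD hB hdiam X δ ε C Pc Ps r p s) (cT F hD hB hdiam X δ ε C Pc Ps r p t) ≤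
        κ * (4 * D) * |s - t| := by
  have hX : ∀ i, Fld (X i) := fun i => (h.df i).fld
  obtain ⟨r₂, h1, h2⟩ := exists_sY_near F D (Pc := Pc) (Ps := Ps) hX hc hs
    (by nlinarith : 0 < κ ^ 2 - 1)
  refine ⟨min r₂ r, lt_min h1 hr, min_le_right _ _, fun p hp s t => ?_⟩
  have h3 : ‖p.a‖ ≤ r := ((norm_w_le p).1 hp).1.trans (min_le_right _ _)
  rw [cT_near hr h3, cT_near hr h3]
  have h7 : ∀ t, S3U.sp E (fun t => kY F D X Pc Ps ((p.v, p.w), t)) t ≤ κ := by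
    intro t
    have h5 : S3U.sp E (fun t => kY F D X Pc Ps ((p.v, p.w), t)) t ^ 2 =
      sY F D X Pc Ps ((p.v, p.w), t) := rfl
    have h6 := (abs_le.1 (h2 p.v p.w (hp.trans (min_le_left _ _)) t)).2
    rw [← h5] at h6
    refine le_of_sq_le_sq ?_ (by linarith)
    linarith
  have h8 := dist_le_of_sp (K := κ) (cmd_kY F hX hc hs p.v p.w) h7 (4 * D * s) (4 * D * t)
  refine h8.trans (le_of_eq ?_)
  rw [← mul_sub, abs_mul, abs_of_pos (by positivity : 0 < 4 * D)]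
  ring

/-- the Lipschitz constant `6 D` near the zero section -/
theorem exists_lip6 (h : S2N.Fam F hD hB hdiam l X δ ε) (hr : 0 < r)
    (hc : ∀ i, Fld (Pc i)) (hs : ∀ i, Fld (Ps i)) :
    ∃ r₁, 0 < r₁ ∧ r₁ ≤ r ∧ ∀ p : TY F D X δ ε, ‖p.a‖ ≤ r₁ → ‖p.x‖ ≤ r₁ → ‖p.y‖ ≤ r₁ →
      ∀ s t : ℝ, dist (cT F hD hB hdiam X δ ε C Pc Ps r p s)
        (cT F hD hB hdiam X δ ε C Pc Ps r p t) ≤ 6 * D * |s - t| := by
  obtain ⟨r₁, h1, h2, h3⟩ := exists_lip_near (C := C) h hr hc hs (by norm_num : (1 : ℝ) < 3 / 2)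
  refine ⟨r₁, h1, h2, fun p ha hx hy s t => (h3 p ((norm_w_le p).2 ⟨ha, hx, hy⟩) s t).trans
    (le_of_eq (by ring))⟩

end

end Vale.Agent.P231.S3Y
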