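import Vale.Agent.P231.S3Y.CY
import Vale.Agent.P231.S3L.Fam

/-!
# P231, stage 3, S3-Y: Lipschitz bound, equivariant functions, the map to the universal family
-/

set_option maxSynthPendingDepth 3
set_option linter.unusedSectionVars false
set_option linter.unusedVariables false

open Bundle Manifold Set Filter Module MeasureTheory
open scoped ContDiff Manifold Topology ENNReal

namespace Vale.Agent.P231.S3Y

noncomputable section

open Vale.Agent.P234 Vale.Agent.P231 Vale.Agent.P231.Fm Vale.Agent.P231.W Vale.Agent.P231.WR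
open Vale.Agent.P231.WF Vale.Agent.P231.H766 Vale.Agent.P231.S2N Vale.Agent.P231.S3S

variable {ι : Type} [Fintype ι] [DecidableEq ι]

variable {E : Type*} [NormedAddCommGroup E] [NormedSpace ℝ E]
  {M : Type*} [MetricSpace M] [ChartedSpace E M]
  [RiemannianBundle (fun x : M => TangentSpace 𝓘(ℝ, E) x)]
  {e : ∀ x : M, TangentSpace 𝓘(ℝ, E) x → M}
  [FiniteDimensional ℝ E] [IsManifold 𝓘(ℝ, E) ∞ M]
  [IsContMDiffRiemannianBundle 𝓘(ℝ, E) ∞ E (fun x : M => TangentSpace 𝓘(ℝ, E) x)]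
  [CompactSpace M] [ConnectedSpace M] [IsRiemannianManifold 𝓘(ℝ, E) M]

/-- a bound for the speed is a Lipschitz constant -/
theorem dist_le_of_sp {c : ℝ → M} (hc : ContMDiff 𝓘(ℝ, ℝ) 𝓘(ℝ, E) ∞ c) {K : ℝ}
    (h : ∀ t, S3U.sp E c t ≤ K) (s t : ℝ) : dist (c s) (c t) ≤ K * |s - t| := by
  have key : ∀ s t : ℝ, s ≤ t → dist (c s) (c t) ≤ K * |s - t| := by
    intro s t hst
    refine (S3U.dist_le_int hc hst).trans ?_
    have h1 : ∫ x in s..t, S3U.sp E c x ≤ ∫ x in s..t, K :=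
      intervalIntegral.integral_mono_on hst ((S3U.continuous_sp hc).intervalIntegrable _ _)
        intervalIntegrable_const fun x _ => h x
    rw [intervalIntegral.integral_const, smul_eq_mul] at h1
    rw [abs_sub_comm, abs_of_nonneg (sub_nonneg.2 hst), mul_comm]
    exact h1
  rcases le_total s t with h1 | h1
  · exact key s t h1
  · rw [dist_comm, abs_sub_comm]
    exact key t s h1

variable {D : ℝ} {F : Facts e} {hD : 0 < D} {hB : InjGE e D} {hdiam : ∀ p q : M, dist p q ≤ D}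
  {l : ℕ} {X δ Pc Ps : ι → UT E M → E} {ε r : ℝ} {C : Xi F D X δ ε → M}

/-! ### near the zero section -/

theorem rx_le {V : Type*} [NormedAddCommGroup V] [InnerProductSpace ℝ V] (θ : ℝ) {x y : V} {c : ℝ}
    (hc : 0 ≤ c) (h : ‖x‖ ^ 2 + ‖y‖ ^ 2 ≤ c ^ 2) : ‖rx θ x y‖ ≤ c ∧ ‖ry θ x y‖ ≤ c := by
  have h1 := rot_unit θ x y
  constructor
  · refine le_of_sq_le_sq ?_ hc
    nlinarith [sq_nonneg ‖ry θ x y‖]
  · refine le_of_sq_le_sq ?_ hc
    nlinarith [sq_nonneg ‖rx θ x y‖]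

theorem exists_sp_near (hX : ∀ i, Fld (X i)) (hc : ∀ i, Fld (Pc i)) (hs : ∀ i, Fld (Ps i))
    (R : ℝ) : ∃ K, 0 ≤ K ∧ ∀ (v : UT E M) (w : Wp ι), ‖w.1‖ ≤ R → 0 ≤ R →
      ‖w.2.1‖ ^ 2 + ‖w.2.2‖ ^ 2 ≤ R ^ 2 → ∀ t,
        S3U.sp E (fun t => kY F D X Pc Ps ((v, w), t)) t ≤ K := by
  have h1 : ((dUT E M).prod (Dif.lin (Wp ι))).Map (Dif.lin ℝ)
      (fun q => sY F D X Pc Ps (q, 0)) := by
    intro E' _ _ _ u z hu
    exact map_sY (D := D) F hX hc hs (u := fun s => (u s, (0 : ℝ)))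
      ⟨hu, Sm.of_contDiff contDiff_const z⟩
  obtain ⟨K, hK, h2⟩ := S3N.bdd_UT (S3N.cont_UT h1) R
  refine ⟨Real.sqrt K, Real.sqrt_nonneg _, fun v w hw1 hR hw2 t => ?_⟩
  have h3 : S3U.sp E (fun t => kY F D X Pc Ps ((v, w), t)) t ^ 2 =
      sY F D X Pc Ps ((v, w), t) := rfl
  refine Real.le_sqrt_of_sq_le ?_
  rw [h3, ← sY_add F hX hc hs]
  have h4 := rx_le (om D * t) hR hw2
  have h5 : ‖rW D w t‖ ≤ R := by
    unfold rW
    rw [Prod.norm_def, Prod.norm_def]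
    exact max_le hw1 (max_le h4.1 h4.2)
  exact (le_abs_self _).trans (h2 (phi F (v, t)) (rW D w t) h5)

/-! ### far from the zero section -/

/-- the standard family in polar coordinates, along the flow -/
theorem C_pol_Lam (hP : ∀ x y : M, dist x y = D → finrank ℝ (H775.Pl e D x y) = l + 1)
    (h : S2N.Fam F hD hB hdiam l X δ ε) (C : Xi F D X δ ε → M) (b : Pr e D) (R t : ℝ) :
    C (flXi F hD hB hdiam X δ ε (pol hP h (b, R), t)) = C (pol hP h (Lam hP h (b, t), R)) := by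
  rw [pol_Lam]

theorem map_C_pol (hP : ∀ x y : M, dist x y = D → finrank ℝ (H775.Pl e D x y) = l + 1)
    (h : S2N.Fam F hD hB hdiam l X δ ε) (hC : (dXi F D X δ ε).Map (dM E M) C) :
    (((dPr e D).prod (Dif.lin ℝ)).prod (Dif.lin ℝ)).Map (dM E M)
      (fun q : (Pr e D × ℝ) × ℝ => C (pol hP h (Lam hP h (q.1.1, q.2), q.1.2))) := by
  intro E' _ _ _ u z hu
  have k1 : (dPr e D).At (fun s : E' => Lam hP h ((u s).1.1, (u s).2)) z :=
    (isFlow_Lam hP h).map (u := fun s : E' => ((u s).1.1, (u s).2)) ⟨hu.1.1, hu.2⟩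
  exact hC (map_pol hP h (u := fun s : E' => (Lam hP h ((u s).1.1, (u s).2), (u s).1.2))
    ⟨k1, hu.1.2⟩)

theorem cmd_C_pol (hP : ∀ x y : M, dist x y = D → finrank ℝ (H775.Pl e D x y) = l + 1)
    (h : S2N.Fam F hD hB hdiam l X δ ε) (hC : (dXi F D X δ ε).Map (dM E M) C)
    (b : Pr e D) (R : ℝ) :
    ContMDiff 𝓘(ℝ, ℝ) 𝓘(ℝ, E) ∞ (fun t : ℝ => C (pol hP h (Lam hP h (b, t), R))) := fun t => by
  have h1 : (dM E M).At (fun t : ℝ => C (pol hP h (Lam hP h (b, t), R))) t :=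
    map_C_pol hP h hC (u := fun t : ℝ => ((b, R), t))
      ⟨⟨const_at_Pr b t, Sm.of_contDiff contDiff_const _⟩, Sm.of_contDiff contDiff_id _⟩
  exact Filter.Eventually.self_of_nhds (show ∀ᶠ z in 𝓝 t, ContMDiffAt 𝓘(ℝ, ℝ) 𝓘(ℝ, E) ∞
        (fun t : ℝ => C (pol hP h (Lam hP h (b, t), R))) z from h1)

theorem exists_sp_far (hP : ∀ x y : M, dist x y = D → finrank ℝ (H775.Pl e D x y) = l + 1)
    (h : S2N.Fam F hD hB hdiam l X δ ε) (hC : (dXi F D X δ ε).Map (dM E M) C) :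
    ∃ K, 0 ≤ K ∧ ∀ (b : Pr e D) (R : ℝ), 0 ≤ R → R ≤ 1 → ∀ t,
      S3U.sp E (fun t => C (pol hP h (Lam hP h (b, t), R))) t ≤ K := by
  have h1 : (((dPr e D).prod (Dif.lin ℝ)).prod (Dif.lin ℝ)).Map (dTM E M)
      (fun q : (Pr e D × ℝ) × ℝ => tb (C (pol hP h (Lam hP h (q.1.1, q.2), q.1.2)))
        (WC.vl (fun t => C (pol hP h (Lam hP h (q.1.1, t), q.1.2))) q.2 : E)) :=
    H997.MV_dv (E := E) (H := fun q : (Pr e D × ℝ) × ℝ =>
      C (pol hP h (Lam hP h (q.1.1, q.2), q.1.2))) (map_C_pol hP h hC)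
  have h2 : (((dPr e D).prod (Dif.lin ℝ)).prod (Dif.lin ℝ)).Map (Dif.lin ℝ)
      (fun q : (Pr e D × ℝ) × ℝ => nm (C (pol hP h (Lam hP h (q.1.1, q.2), q.1.2)))
        (WC.vl (fun t => C (pol hP h (Lam hP h (q.1.1, t), q.1.2))) q.2 : E) ^ 2) :=
    WC.map_nm_sq h1
  have h3 : ((dPr e D).prod (Dif.lin ℝ)).Map (Dif.lin ℝ)
      (fun q : Pr e D × ℝ => nm (C (pol hP h (Lam hP h (q.1, 0), q.2)))
        (WC.vl (fun t => C (pol hP h (Lam hP h (q.1, t), q.2))) 0 : E) ^ 2) := by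
    intro E' _ _ _ u z hu
    exact h2 (u := fun s => (u s, (0 : ℝ))) ⟨hu, Sm.of_contDiff contDiff_const z⟩
  obtain ⟨K, hK, h4⟩ := PC.bdd (pc_Pr F hD hB hdiam hP) h3 (K := Icc (0 : ℝ) 1) isCompact_Icc
  refine ⟨Real.sqrt K, Real.sqrt_nonneg _, fun b R hR0 hR1 t => ?_⟩
  refine Real.le_sqrt_of_sq_le ?_
  have h5 := h4 (Lam hP h (b, t)) R ⟨hR0, hR1⟩
  have e1 : (fun s => C (pol hP h (Lam hP h (Lam hP h (b, t), s), R))) =
      fun s => (fun s => C (pol hP h (Lam hP h (b, s), R))) (t + s) := by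
    funext s
    rw [(isFlow_Lam hP h).add]
  have h6 : (WC.vl (fun s => C (pol hP h (Lam hP h (Lam hP h (b, t), s), R))) 0 : E) =
      WC.vl (fun s => C (pol hP h (Lam hP h (b, s), R))) (t + 0) := by
    rw [e1]
    have h7 := H997.dv_comp (E := E) (c := fun s => C (pol hP h (Lam hP h (b, s), R))) (t := 0)
      (g := fun s => t + s) (g' := 1) ((cmd_C_pol hP h hC b R).mdifferentiable (by simp) (t + 0))
      (by simpa using (hasDerivAt_id (0 : ℝ)).const_add t)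
    rw [one_smul] at h7
    exact h7
  simp only at h5
  rw [h6, (isFlow_Lam hP h).add, add_zero] at h5
  exact h5

/-- **uniform Lipschitz bound** -/
theorem exists_lip (hP : ∀ x y : M, dist x y = D → finrank ℝ (H775.Pl e D x y) = l + 1)
    (h : S2N.Fam F hD hB hdiam l X δ ε) (hC : StdX F hD hB hdiam X δ ε r C)
    (hc : ∀ i, Fld (Pc i)) (hs : ∀ i, Fld (Ps i)) (ρ : ℝ) :
    ∃ K, 0 ≤ K ∧ ∀ (p : YY F D X δ ε) (s t : ℝ),
      dist (CY C Pc Ps r (flYY F hD hB hdiam X δ ε (p, s), ρ))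
        (CY C Pc Ps r (flYY F hD hB hdiam X δ ε (p, t), ρ)) ≤ K * |s - t| := by
  have hr := hC.pos
  have hX : ∀ i, Fld (X i) := fun i => (h.df i).fld
  obtain ⟨K₁, hK₁, h1⟩ := exists_sp_near (F := F) (D := D) hX hc hs (max (2 * r) |ρ|)
  obtain ⟨K₂, hK₂, h2⟩ := exists_sp_far hP h hC.map
  refine ⟨max K₁ K₂, le_max_of_le_left hK₁, fun p s t => ?_⟩
  by_cases hp : ‖p.a‖ ^ 2 < 3 * r ^ 2
  · rw [CY_fl_lt hp, CY_fl_lt hp]
    refine (dist_le_of_sp (cmd_kY F hX hc hs p.v (wY r (p, ρ))) (h1 p.v (wY r (p, ρ)) ?_ ?_ ?_)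
      s t).trans (mul_le_mul_of_nonneg_right (le_max_left _ _) (abs_nonneg _))
    · refine le_trans ?_ (le_max_left _ _)
      change ‖p.a‖ ≤ 2 * r
      nlinarith [norm_nonneg p.a]
    · exact le_max_of_le_left (by linarith)
    · have h3 : |ρ| ^ 2 ≤ max (2 * r) |ρ| ^ 2 :=
        pow_le_pow_left₀ (abs_nonneg _) (le_max_right _ _) 2
      refine le_trans ?_ h3
      change ‖(ρ * chi r p.a) • p.x‖ ^ 2 + ‖(ρ * chi r p.a) • p.y‖ ^ 2 ≤ _
      rw [norm_smul, norm_smul, mul_pow, mul_pow, ← mul_add, p.unit, mul_one, Real.norm_eq_abs,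
        abs_mul, mul_pow]
      have h4 : |chi r p.a| ^ 2 ≤ 1 := by
        rw [abs_of_nonneg (chi_nonneg r p.a)]
        exact pow_le_one₀ (chi_nonneg r p.a) (chi_le_one r p.a)
      exact mul_le_of_le_one_right (by positivity) h4
  · have hp' : 2 * r ^ 2 ≤ ‖p.a‖ ^ 2 := by nlinarith [not_lt.1 hp]
    have hp0 : p.a ≠ 0 := by
      intro h0
      rw [h0, norm_zero] at hp'
      nlinarith
    rw [CY_fl_ge hC hp', CY_fl_ge hC hp']
    set b : Pr e D := dir hP h ⟨toXi p, hp0⟩ with hb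
    have e1 : toXi p = pol hP h (b, ‖p.a‖) := (pol_dir hP h ⟨toXi p, hp0⟩).symm
    rcases le_total ‖p.a‖ 1 with h3 | h3
    · rw [e1, C_pol_Lam hP h C, C_pol_Lam hP h C]
      exact (dist_le_of_sp (cmd_C_pol hP h hC.map b ‖p.a‖) (h2 b ‖p.a‖ (norm_nonneg _) h3)
        s t).trans (mul_le_mul_of_nonneg_right (le_max_right _ _) (abs_nonneg _))
    · rw [hC.inv (toXi p) s h3, hC.inv (toXi p) t h3, dist_self]
      exact mul_nonneg (le_max_of_le_left hK₁) (abs_nonneg _)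

end

end Vale.Agent.P231.S3Y
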