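import Vale.Agent.P231.S3Y.Ph
import Vale.Agent.P231.S3E2.Fin

/-!
# P231, stage 3: the family side of S3-LT: all the families in the standard data
-/

set_option maxSynthPendingDepth 3
set_option linter.unusedSectionVars false
set_option linter.unusedVariables false

open Bundle Manifold Set Filter Module MeasureTheory
open scoped ContDiff Manifold Topology ENNReal

namespace Vale.Agent.P231.S3Y

noncomputable section

open Vale.Agent.P234 Vale.Agent.P231 Vale.Agent.P231.Fm Vale.Agent.P231.W Vale.Agent.P231.WR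
open Vale.Agent.P231.WF Vale.Agent.P231.H766 Vale.Agent.P231.S2N Vale.Agent.P231.S3S

variable {E : Type*} [NormedAddCommGroup E] [NormedSpace ℝ E]
  {M : Type*} [MetricSpace M] [ChartedSpace E M]
  [RiemannianBundle (fun x : M => TangentSpace 𝓘(ℝ, E) x)]
  {e : ∀ x : M, TangentSpace 𝓘(ℝ, E) x → M}
  [FiniteDimensional ℝ E] [IsManifold 𝓘(ℝ, E) ∞ M]
  [IsContMDiffRiemannianBundle 𝓘(ℝ, E) ∞ E (fun x : M => TangentSpace 𝓘(ℝ, E) x)]
  [CompactSpace M] [ConnectedSpace M] [IsRiemannianManifold 𝓘(ℝ, E) M]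

variable {D : ℝ} {ι : Type} [Fintype ι] [DecidableEq ι]

/-- the first fields of S3-A -/
abbrev PcS (F : Facts e) (hD : 0 < D) (hB : InjGE e D) (hdiam : ∀ p q : M, dist p q ≤ D)
    (X δ : ι → UT E M → E) (ε : ℝ) : ι → UT E M → E :=
  S3E2.Pc F D (S3E2.Wi F hD hB hdiam X δ ε) (Real.pi / (2 * D))

/-- the second fields of S3-A -/
abbrev PsS (F : Facts e) (hD : 0 < D) (hB : InjGE e D) (hdiam : ∀ p q : M, dist p q ≤ D)
    (X δ : ι → UT E M → E) (ε : ℝ) : ι → UT E M → E :=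
  S3E2.Ps F D (S3E2.Wi F hD hB hdiam X δ ε) (Real.pi / (2 * D))

variable {F : Facts e} {hD : 0 < D} {hB : InjGE e D} {hdiam : ∀ p q : M, dist p q ≤ D}
  {l : ℕ} {X δ : ι → UT E M → E} {ε : ℝ}

/-- **the families in the standard data**: `ε₁`, `c` only depend on the family of fields; the rest
holds for every `r ≤ ε₁ / 2` and every standard family over the space of pairs -/
theorem exists_famStd (hP : ∀ x y : M, dist x y = D → finrank ℝ (H775.Pl e D x y) = l + 1)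
    (h : Fam F hD hB hdiam l X δ ε) : ∃ ε₁ c : ℝ, 0 < ε₁ ∧ 0 < c ∧
      PhF F D X δ ε (PcS F hD hB hdiam X δ ε) (PsS F hD hB hdiam X δ ε) ε₁ ∧
      (∀ (v : UT E M) (w : Wp ι), Pm F D X δ ε v w.1 = w.1 → Pm F D X δ ε v w.2.1 = w.2.1 →
        Pm F D X δ ε v w.2.2 = w.2.2 → ‖w‖ ≤ ε₁ →
        eY F D X (PcS F hD hB hdiam X δ ε) (PsS F hD hB hdiam X δ ε) (v, w) ≤
          4 * D - c * ‖w‖ ^ 2) ∧
      ∀ r, 0 < r → 2 * r ≤ ε₁ → ∀ G : Pr e D × ℝ → M,
        StdP e (Lam hP h) (Yb F hD hB hdiam X δ ε) r G → Margin (Lam hP h) G →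
        StdX F hD hB hdiam X δ ε r (stdX hP h G) ∧
        MarginX F hD hB hdiam X δ ε (stdX hP h G) ∧
        ∀ ρ, 0 < ρ → ρ ≤ ε₁ → ∃ (S : NNReal) (m : ℝ), 0 < m ∧ m < 4 * D ∧
          ∃ Z : S3L.Fam (AX F hD hB hdiam X δ ε) (dM E M) S (ENNReal.ofReal m) (dJ ι)
            (Fintype.card ι), (∀ p, Z.C p = CX (stdX hP h G) (PcS F hD hB hdiam X δ ε)
              (PsS F hD hB hdiam X δ ε) r (p, ρ)) ∧
            ∀ j p, Z.F j p = p.z ((Fintype.equivFin ι).symm j) := by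
  obtain ⟨ε₁, c, hc, hPh, hq⟩ := exists_phF hP h (S3E2.isW_Wi hP h)
    (S3E2.fld_Pc _ (S3E2.ls_Wi hP h)) (S3E2.fld_Ps _ (S3E2.ls_Wi hP h))
    (S3E2.XX_flow (S3E2.ls_Wi hP h))
  refine ⟨ε₁, c, hPh.pos, hc, hPh, hq, fun r hr hr1 G hG hm => ?_⟩
  have hC : StdX F hD hB hdiam X δ ε r (stdX hP h G) := StdP.stdX hP h hG
  have hM : MarginX F hD hB hdiam X δ ε (stdX hP h G) := marginX_of hP h hm
  refine ⟨hC, hM, fun ρ hρ hρ1 => ?_⟩
  exact exists_famX hP h hC hM hPh hr1 hρ hρ1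

end

end Vale.Agent.P231.S3Y
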