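import Vale.Agent.P231.S3Y.Cur

/-!
# P231, stage 3, S3-Y: the family over `Y × ℝ`
-/

set_option maxSynthPendingDepth 3
set_option linter.unusedSectionVars false
set_option linter.unusedVariables false

open Bundle Manifold Set Filter Module MeasureTheory
open scoped ContDiff Manifold Topology ENNReal

namespace Vale.Agent.P231.S3Y

noncomputable section

open Vale.Agent.P234 Vale.Agent.P231 Vale.Agent.P231.Fm Vale.Agent.P231.W Vale.Agent.P231.WR
open Vale.Agent.P231.WF Vale.Agent.P231.H766 Vale.Agent.P231.S2N Vale.Agent.P231.S3S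

variable {ι : Type} [Fintype ι] [DecidableEq ι]

/-! ### the radial cut-off -/

/-- the radial cut-off: one for `‖a‖ ≤ r`, zero for `2 r² ≤ ‖a‖²` -/
def chi (r : ℝ) (a : EuclideanSpace ℝ ι) : ℝ :=
  1 - Real.smoothTransition ((‖a‖ ^ 2 - r ^ 2) / r ^ 2)

theorem contDiff_chi (r : ℝ) : ContDiff ℝ ∞ (chi (ι := ι) r) :=
  contDiff_const.sub (Real.smoothTransition.contDiff.comp
    (((contDiff_norm_sq ℝ).sub contDiff_const).div_const _))

theorem chi_one {r : ℝ} (hr : 0 < r) {a : EuclideanSpace ℝ ι} (h : ‖a‖ ≤ r) : chi r a = 1 := by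
  have h1 : ‖a‖ ^ 2 ≤ r ^ 2 := pow_le_pow_left₀ (norm_nonneg _) h 2
  unfold chi
  rw [Real.smoothTransition.zero_of_nonpos
    (div_nonpos_of_nonpos_of_nonneg (by linarith) (by positivity)), sub_zero]

theorem chi_zero {r : ℝ} (hr : 0 < r) {a : EuclideanSpace ℝ ι} (h : 2 * r ^ 2 ≤ ‖a‖ ^ 2) :
    chi r a = 0 := by
  unfold chi
  rw [Real.smoothTransition.one_of_one_le, sub_self]
  rw [one_le_div (by positivity)]
  linarith

theorem chi_nonneg (r : ℝ) (a : EuclideanSpace ℝ ι) : 0 ≤ chi r a := by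
  unfold chi
  linarith [Real.smoothTransition.le_one ((‖a‖ ^ 2 - r ^ 2) / r ^ 2)]

theorem chi_le_one (r : ℝ) (a : EuclideanSpace ℝ ι) : chi r a ≤ 1 := by
  unfold chi
  linarith [Real.smoothTransition.nonneg ((‖a‖ ^ 2 - r ^ 2) / r ^ 2)]

variable {E : Type*} [NormedAddCommGroup E] [NormedSpace ℝ E]
  {M : Type*} [MetricSpace M] [ChartedSpace E M]
  [RiemannianBundle (fun x : M => TangentSpace 𝓘(ℝ, E) x)]
  {e : ∀ x : M, TangentSpace 𝓘(ℝ, E) x → M}
  [FiniteDimensional ℝ E] [IsManifold 𝓘(ℝ, E) ∞ M]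
  [IsContMDiffRiemannianBundle 𝓘(ℝ, E) ∞ E (fun x : M => TangentSpace 𝓘(ℝ, E) x)]
  [CompactSpace M] [ConnectedSpace M] [IsRiemannianManifold 𝓘(ℝ, E) M]

variable {D : ℝ} {F : Facts e} {hD : 0 < D} {hB : InjGE e D} {hdiam : ∀ p q : M, dist p q ≤ D}
  {l : ℕ} {X δ Pc Ps : ι → UT E M → E} {ε r : ℝ} {C : Xi F D X δ ε → M}

/-- the parameters of the push at `(v, a, z)` and size `ρ` -/
def wY (r : ℝ) (q : YY F D X δ ε × ℝ) : Wp ι :=
  (q.1.a, ((q.2 * chi r q.1.a) • q.1.x, (q.2 * chi r q.1.a) • q.1.y))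

/-- **the family over `Y × ℝ`** -/
def CY (C : Xi F D X δ ε → M) (Pc Ps : ι → UT E M → E) (r : ℝ) (q : YY F D X δ ε × ℝ) : M :=
  open Classical in
  if ‖q.1.a‖ ^ 2 < 3 * r ^ 2 then gY e X Pc Ps q.1.v (wY r q) else C (toXi q.1)

theorem gY_zero (v : UT E M) (a : EuclideanSpace ℝ ι) :
    gY e X Pc Ps v (a, (0, 0)) = linX e X v a := by
  unfold gY linX
  simp only [XX_zero', add_zero]

theorem wY_of_zero {q : YY F D X δ ε × ℝ} (h : q.2 * chi r q.1.a = 0) :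
    wY r q = (q.1.a, (0, 0)) := by
  unfold wY
  rw [h, zero_smul, zero_smul]

theorem CY_lt {q : YY F D X δ ε × ℝ} (h : ‖q.1.a‖ ^ 2 < 3 * r ^ 2) :
    CY C Pc Ps r q = gY e X Pc Ps q.1.v (wY r q) := if_pos h

variable (hC : StdX F hD hB hdiam X δ ε r C)

include hC

theorem CY_ge {q : YY F D X δ ε × ℝ} (h : 2 * r ^ 2 ≤ ‖q.1.a‖ ^ 2) :
    CY C Pc Ps r q = C (toXi q.1) := by
  by_cases h1 : ‖q.1.a‖ ^ 2 < 3 * r ^ 2
  · have hr := hC.pos
    rw [CY_lt h1, wY_of_zero (by rw [chi_zero hr h, mul_zero]), gY_zero]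
    refine (hC.small (toXi q.1) ?_).symm
    rw [toXi_a]
    nlinarith [norm_nonneg q.1.a]
  · unfold CY
    rw [if_neg h1]

/-- for `ρ = 0` one has the standard family -/
theorem CY_zero (p : YY F D X δ ε) : CY C Pc Ps r (p, 0) = C (toXi p) := by
  by_cases h1 : ‖p.a‖ ^ 2 < 3 * r ^ 2
  · have hr := hC.pos
    have h2 : wY r (p, (0 : ℝ)) = (p.a, (0, 0)) := wY_of_zero (zero_mul _)
    rw [CY_lt (q := (p, 0)) h1, h2, gY_zero]
    refine (hC.small (toXi p) ?_).symm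
    rw [toXi_a]
    nlinarith [norm_nonneg p.a]
  · unfold CY
    rw [if_neg h1]

/-- the family is smooth -/
theorem map_CY (hX : ∀ i, Fld (X i)) (hc : ∀ i, Fld (Pc i)) (hs : ∀ i, Fld (Ps i)) :
    ((dYY F D X δ ε).prod (Dif.lin ℝ)).Map (dM E M) (CY C Pc Ps r) := by
  intro E' _ _ _ u z hu
  have hr := hC.pos
  have hu1 : (dYY F D X δ ε).At (fun s => (u s).1) z := hu.1
  have h5 : Sm (fun s => (u s).2) z := hu.2
  obtain ⟨h1, h2, h3, h4⟩ := (at_YY (u := fun s => (u s).1) (s := z)).1 hu1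
  have hn0 : ContinuousAt (fun s => (u s).1.a) z := h2.continuousAt
  have hn : ContinuousAt (fun s => ‖(u s).1.a‖ ^ 2) z := hn0.norm.pow 2
  by_cases hz : ‖(u z).1.a‖ ^ 2 < 3 * r ^ 2
  · have h6 : Sm (fun s => (u s).2 * chi r (u s).1.a) z := by
      filter_upwards [h5, h2] with s k1 k2
      exact k1.mul ((contDiff_chi r).contDiffAt.comp s k2)
    have h7 : Sm (fun s => ((u s).2 * chi r (u s).1.a) • (u s).1.x) z := by
      filter_upwards [h6, h3] with s k1 k2 using k1.smul k2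
    have h8 : Sm (fun s => ((u s).2 * chi r (u s).1.a) • (u s).1.y) z := by
      filter_upwards [h6, h4] with s k1 k2 using k1.smul k2
    refine (dM E M).congr (at_gY F hX hc hs h1 h2 h7 h8) ?_
    filter_upwards [hn.eventually_lt_const hz] with s hs'
    exact (CY_lt hs').symm
  · have hz' : 2 * r ^ 2 < ‖(u z).1.a‖ ^ 2 := by
      have := not_lt.1 hz
      nlinarith
    refine (dM E M).congr (hC.map (map_toXi hu1)) ?_
    filter_upwards [hn.eventually_const_lt hz'] with s hs'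
    exact (CY_ge hC hs'.le).symm

omit hC in
/-- the loops of the family near the zero section -/
theorem CY_fl_lt {p : YY F D X δ ε} (h : ‖p.a‖ ^ 2 < 3 * r ^ 2) (ρ t : ℝ) :
    CY C Pc Ps r (flYY F hD hB hdiam X δ ε (p, t), ρ) =
      kY F D X Pc Ps ((p.v, wY r (p, ρ)), t) := by
  rw [CY_lt (q := (flYY F hD hB hdiam X δ ε (p, t), ρ)) h]
  unfold kY wY rW
  simp only [flYY_v, flYY_a, flYY_x, flYY_y, rx_smul, ry_smul]

/-- the loops of the family far from the zero section -/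
theorem CY_fl_ge {p : YY F D X δ ε} (h : 2 * r ^ 2 ≤ ‖p.a‖ ^ 2) (ρ t : ℝ) :
    CY C Pc Ps r (flYY F hD hB hdiam X δ ε (p, t), ρ) =
      C (flXi F hD hB hdiam X δ ε (toXi p, t)) :=
  CY_ge hC (q := (flYY F hD hB hdiam X δ ε (p, t), ρ)) h

theorem r_lt_one : r < 1 := by
  have h1 := hC.le
  have h2 := hC.pos
  linarith

/-- the loops of the family are constant for `1 ≤ ‖a‖` -/
theorem CY_inv {p : YY F D X δ ε} (h : 1 ≤ ‖p.a‖) (ρ t : ℝ) :
    CY C Pc Ps r (flYY F hD hB hdiam X δ ε (p, t), ρ) = CY C Pc Ps r (p, ρ) := by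
  have h1 := hC.le
  have h2 := hC.pos
  have h3 : 2 * r ^ 2 ≤ ‖p.a‖ ^ 2 := by nlinarith [norm_nonneg p.a]
  rw [CY_fl_ge hC h3, CY_ge hC (q := (p, ρ)) h3]
  exact hC.inv (toXi p) t h

omit hC

/-! ### the variation -/

/-- the variation of a periodic curve over two periods -/
theorem var_double {c : ℝ → M} {T : ℝ} (hT : 0 ≤ T) (hc : ∀ t, c (t + T) = c t) :
    eVariationOn c (Icc 0 (2 * T)) = 2 * eVariationOn c (Icc 0 T) := by
  have h1 : eVariationOn c (Icc 0 T) + eVariationOn c (Icc T (2 * T)) =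
      eVariationOn c (Icc 0 (2 * T)) := by
    have := eVariationOn.Icc_add_Icc c (s := univ) (a := 0) (b := T) (c := 2 * T) hT (by linarith)
      (mem_univ T)
    simpa using this
  have h2 : eVariationOn c (Icc T (2 * T)) = eVariationOn c (Icc 0 T) := by
    have h3 := eVariationOn.comp_eq_of_monotoneOn c (fun t : ℝ => t + T) (t := Icc 0 T)
      (fun x _ y _ h => by simpa using h)
    have h4 : (fun t : ℝ => t + T) '' Icc 0 T = Icc T (2 * T) := by
      rw [image_add_const_Icc, zero_add, two_mul]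
    have h5 : c ∘ (fun t : ℝ => t + T) = c := funext hc
    rw [h4, h5] at h3
    exact h3.symm
  rw [← h1, h2, two_mul]

theorem flXi_per (p : Xi F D X δ ε) (t : ℝ) : flXi F hD hB hdiam X δ ε (p, t + 2 * D) =
    flXi F hD hB hdiam X δ ε (p, t) := by
  have h := isFlow_flXi F hD hB hdiam X δ ε
  rw [add_comm, ← h.add, h.per]

/-- the margin of a family over `Xi` -/
def MarginX (F : Facts e) (hD : 0 < D) (hB : InjGE e D) (hdiam : ∀ p q : M, dist p q ≤ D)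
    (X δ : ι → UT E M → E) (ε : ℝ) (C : Xi F D X δ ε → M) : Prop :=
  ∀ s, 0 < s → ∃ m, m < 2 * D ∧ ∀ p : Xi F D X δ ε, s ≤ ‖p.a‖ →
    eVariationOn (fun t => C (flXi F hD hB hdiam X δ ε (p, t))) (Icc 0 (2 * D)) ≤
      ENNReal.ofReal m

/-- margins over the space of pairs give margins over `Xi` -/
theorem marginX_of (hP : ∀ x y : M, dist x y = D → finrank ℝ (H775.Pl e D x y) = l + 1)
    (h : S2N.Fam F hD hB hdiam l X δ ε) {G : Pr e D × ℝ → M} (hG : Margin (Lam hP h) G) :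
    MarginX F hD hB hdiam X δ ε (stdX hP h G) := by
  intro s hs
  obtain ⟨m, hm, hm2⟩ := hG s hs
  exact ⟨m, hm, fun p hp => stdX_margin hP h hs hm2 p hp⟩

section Cpt

attribute [local instance] WF.topUT

/-- strict bounds on compact sets are uniform -/
theorem exists_lt_of_compact {Z : Type*} [TopologicalSpace Z] {K : Set Z} (hK : IsCompact K)
    {f : Z → ℝ} (hf : ContinuousOn f K) {c : ℝ} (h : ∀ z ∈ K, f z < c) :
    ∃ m, m < c ∧ ∀ z ∈ K, f z ≤ m := by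
  rcases K.eq_empty_or_nonempty with rfl | hne
  · exact ⟨c - 1, by linarith, fun z hz => absurd hz (notMem_empty z)⟩
  · obtain ⟨z, hz, hz2⟩ := hK.exists_isMaxOn hne hf
    exact ⟨f z, h z hz, fun w hw => hz2 hw⟩

/-- the compact set of the `(v, a, x, y)` with `‖a‖ ≤ 2 r` -/
def KY (F : Facts e) (D : ℝ) (X δ : ι → UT E M → E) (ε r : ℝ) : Set (UT E M × Wp ι) :=
  {q | (Pm F D X δ ε q.1 q.2.1 = q.2.1 ∧ Pm F D X δ ε q.1 q.2.2.1 = q.2.2.1 ∧
    Pm F D X δ ε q.1 q.2.2.2 = q.2.2.2) ∧ ‖q.2.1‖ ≤ 2 * r ∧ ‖q.2.2.1‖ ^ 2 + ‖q.2.2.2‖ ^ 2 = 1}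

theorem isCompact_KY (h : S2N.Fam F hD hB hdiam l X δ ε) (r : ℝ) :
    IsCompact (KY F D X δ ε r) := by
  have : CompactSpace (UT E M) := compactSpace_UT
  have hP : Continuous (Pm F D X δ ε) := S3N.cont_UT0 (fun {V} _ _ _ {u s} hu => h.sm_Pm hu)
  have hap : ∀ f : UT E M × Wp ι → EuclideanSpace ℝ ι, Continuous f →
      IsClosed {q : UT E M × Wp ι | Pm F D X δ ε q.1 (f q) = f q} := fun f hf =>
    isClosed_eq ((hP.comp continuous_fst).clm_apply hf) hf
  have hK : IsCompact ((univ : Set (UT E M)) ×ˢ Metric.closedBall (0 : Wp ι)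
      (max (2 * r) 1)) := isCompact_univ.prod (isCompact_closedBall _ _)
  refine hK.of_isClosed_subset ?_ ?_
  · refine IsClosed.inter ?_ (IsClosed.inter ?_ ?_)
    · exact (hap (fun q => q.2.1) (by fun_prop)).inter ((hap (fun q => q.2.2.1) (by fun_prop)).inter
        (hap (fun q => q.2.2.2) (by fun_prop)))
    · exact isClosed_le (f := fun q : UT E M × Wp ι => ‖q.2.1‖) (by fun_prop) continuous_const
    · exact isClosed_eq (f := fun q : UT E M × Wp ι => ‖q.2.2.1‖ ^ 2 + ‖q.2.2.2‖ ^ 2)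
        (by fun_prop) continuous_const
  · rintro ⟨v, a, x, y⟩ ⟨-, h2, h3⟩
    simp only at h2 h3
    refine ⟨mem_univ _, ?_⟩
    rw [mem_closedBall_zero_iff, Prod.norm_def, Prod.norm_def]
    refine max_le (h2.trans (le_max_left _ _)) ((max_le ?_ ?_).trans (le_max_right _ _))
    · simp only
      nlinarith [norm_nonneg x, sq_nonneg ‖y‖]
    · simp only
      nlinarith [norm_nonneg y, sq_nonneg ‖x‖]

/-- the push parameters as a function on `UT × Wp` -/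
def wQ (r ρ : ℝ) (w : Wp ι) : Wp ι :=
  (w.1, ((ρ * chi r w.1) • w.2.1, (ρ * chi r w.1) • w.2.2))

theorem contDiff_wQ (r ρ : ℝ) : ContDiff ℝ ∞ (wQ (ι := ι) r ρ) := by
  have h1 : ContDiff ℝ ∞ (fun w : Wp ι => ρ * chi r w.1) :=
    contDiff_const.mul ((contDiff_chi r).comp contDiff_fst)
  exact contDiff_fst.prodMk ((h1.smul (contDiff_fst.comp contDiff_snd)).prodMk
    (h1.smul (contDiff_snd.comp contDiff_snd)))

/-- **the energies near the zero section have a uniform margin** -/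
theorem exists_energy (h : S2N.Fam F hD hB hdiam l X δ ε) {ε₁ : ℝ}
    (hPh : PhF F D X δ ε Pc Ps ε₁) (hr : 0 < r) (hr1 : 2 * r ≤ ε₁) {ρ : ℝ} (hρ : 0 < ρ)
    (hρ1 : ρ ≤ ε₁) : ∃ m, m < 4 * D ∧ ∀ q ∈ KY F D X δ ε r,
      eY F D X Pc Ps (q.1, wQ r ρ q.2) ≤ m := by
  have hX : ∀ i, Fld (X i) := fun i => (h.df i).fld
  have h1 : Continuous (eY F D X Pc Ps) := S3N.cont_UT (map_eY F hX hPh.fc hPh.fs)
  have h2 : Continuous (fun q : UT E M × Wp ι => eY F D X Pc Ps (q.1, wQ r ρ q.2)) :=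
    h1.comp (continuous_fst.prodMk ((contDiff_wQ r ρ).continuous.comp continuous_snd))
  refine exists_lt_of_compact (isCompact_KY h r) h2.continuousOn ?_
  rintro ⟨v, a, x, y⟩ ⟨⟨k1, k2, k3⟩, k4, k5⟩
  simp only at k1 k2 k3 k4 k5
  have hn : ∀ z : EuclideanSpace ℝ ι, ‖z‖ ≤ 1 → ‖(ρ * chi r a) • z‖ ≤ ε₁ := by
    intro z hz
    rw [norm_smul, Real.norm_of_nonneg (mul_nonneg hρ.le (chi_nonneg r a))]
    calc ρ * chi r a * ‖z‖ ≤ ρ * 1 * 1 := by
          gcongr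
          exact chi_le_one r a
      _ ≤ ε₁ := by rw [mul_one, mul_one]; exact hρ1
  have hx1 : ‖x‖ ≤ 1 := by nlinarith [norm_nonneg x, sq_nonneg ‖y‖]
  have hy1 : ‖y‖ ≤ 1 := by nlinarith [norm_nonneg y, sq_nonneg ‖x‖]
  refine hPh.en v a _ _ k1 (by rw [map_smul, k2]) (by rw [map_smul, k3]) ?_ (k4.trans hr1)
    (hn x hx1) (hn y hy1)
  intro h0
  rw [Prod.mk.injEq, Prod.mk.injEq] at h0
  obtain ⟨h3, h4, h5⟩ := h0
  rw [h3, chi_one hr (by rw [norm_zero]; exact hr.le), mul_one] at h4 h5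
  have hx0 : x = 0 := (smul_eq_zero.1 h4).resolve_left hρ.ne'
  have hy0 : y = 0 := (smul_eq_zero.1 h5).resolve_left hρ.ne'
  rw [hx0, hy0, norm_zero] at k5
  norm_num at k5

end Cpt

/-- **all doubled loops for `ρ > 0` are shorter than `4 D`, with a uniform margin** -/
theorem exists_margin (h : S2N.Fam F hD hB hdiam l X δ ε) (hC : StdX F hD hB hdiam X δ ε r C)
    (hm : MarginX F hD hB hdiam X δ ε C) {ε₁ : ℝ}
    (hPh : PhF F D X δ ε Pc Ps ε₁) (hr1 : 2 * r ≤ ε₁) {ρ : ℝ} (hρ : 0 < ρ) (hρ1 : ρ ≤ ε₁) :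
    ∃ m, 0 < m ∧ m < 4 * D ∧ ∀ p : YY F D X δ ε,
      eVariationOn (fun t => CY C Pc Ps r (flYY F hD hB hdiam X δ ε (p, t), ρ))
        (Icc 0 (4 * D)) ≤ ENNReal.ofReal m := by
  have hr := hC.pos
  have hX : ∀ i, Fld (X i) := fun i => (h.df i).fld
  obtain ⟨m₁, h1, h2⟩ := exists_energy h hPh hr hr1 hρ hρ1
  obtain ⟨m₂, h3, h4⟩ := hm r hr
  have h4D : (0 : ℝ) ≤ 4 * D := by linarith
  refine ⟨max D (max ((m₁ + 4 * D) / 2) (2 * m₂)), lt_max_of_lt_left hD,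
    max_lt (by linarith) (max_lt (by linarith) (by linarith)), fun p => ?_⟩
  by_cases hp : ‖p.a‖ ^ 2 < 3 * r ^ 2
  · have e1 : (fun t => CY C Pc Ps r (flYY F hD hB hdiam X δ ε (p, t), ρ)) =
        fun t => kY F D X Pc Ps ((p.v, wY r (p, ρ)), t) := funext fun t => CY_fl_lt hp ρ t
    rw [e1]
    refine (variation_le (cmd_kY F hX hPh.fc hPh.fs p.v (wY r (p, ρ))) h4D).trans ?_
    refine ENNReal.ofReal_le_ofReal ?_
    have h5 := h2 (p.v, (p.a, (p.x, p.y))) ⟨⟨p.pa, p.px, p.py⟩, by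
      simp only
      nlinarith [norm_nonneg p.a], p.unit⟩
    refine le_trans ?_ (le_max_right _ _)
    refine le_trans ?_ (le_max_left _ _)
    have h6 : (∫ t in (0 : ℝ)..(4 * D), nm (kY F D X Pc Ps ((p.v, wY r (p, ρ)), t))
      (WC.vl (fun t => kY F D X Pc Ps ((p.v, wY r (p, ρ)), t)) t : E) ^ 2) ≤ m₁ := h5
    linarith
  · have hp' : 2 * r ^ 2 ≤ ‖p.a‖ ^ 2 := by nlinarith [not_lt.1 hp]
    have hp2 : r ≤ ‖p.a‖ := by nlinarith [norm_nonneg p.a]
    have e1 : (fun t => CY C Pc Ps r (flYY F hD hB hdiam X δ ε (p, t), ρ)) =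
        fun t => C (flXi F hD hB hdiam X δ ε (toXi p, t)) :=
      funext fun t => CY_fl_ge hC hp' ρ t
    have e2 : 4 * D = 2 * (2 * D) := by ring
    rw [e1, e2, var_double (by linarith) (fun t => by rw [flXi_per])]
    refine (mul_le_mul_right (h4 (toXi p) hp2) 2).trans ?_
    rw [show (2 : ℝ≥0∞) = ENNReal.ofReal 2 by simp, ← ENNReal.ofReal_mul zero_le_two]
    exact ENNReal.ofReal_le_ofReal ((le_max_right _ _).trans (le_max_right _ _))

end

end Vale.Agent.P231.S3Y
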