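import Vale.Agent.P231.S3Y.Lip

/-!
# P231, stage 3, S3-Y: the family as a family of loops in the sense of the universal family `LL`
-/

set_option maxSynthPendingDepth 3
set_option linter.unusedSectionVars false
set_option linter.unusedVariables false

open Bundle Manifold Set Filter Module MeasureTheory
open scoped ContDiff Manifold Topology ENNReal

namespace Vale.Agent.P231.S3Y

noncomputable section

open Vale.Agent.P234 Vale.Agent.P231 Vale.Agent.P231.Fm Vale.Agent.P231.W Vale.Agent.P231.WR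
open Vale.Agent.P231.WF Vale.Agent.P231.H766 Vale.Agent.P231.S2N Vale.Agent.P231.S3S

variable {ι : Type} [Fintype ι] [DecidableEq ι]

variable {E : Type*} [NormedAddCommGroup E] [NormedSpace ℝ E]
  {M : Type*} [MetricSpace M] [ChartedSpace E M]
  [RiemannianBundle (fun x : M => TangentSpace 𝓘(ℝ, E) x)]
  {e : ∀ x : M, TangentSpace 𝓘(ℝ, E) x → M}
  [FiniteDimensional ℝ E] [IsManifold 𝓘(ℝ, E) ∞ M]
  [IsContMDiffRiemannianBundle 𝓘(ℝ, E) ∞ E (fun x : M => TangentSpace 𝓘(ℝ, E) x)]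
  [CompactSpace M] [ConnectedSpace M] [IsRiemannianManifold 𝓘(ℝ, E) M]

variable {D : ℝ} {F : Facts e} {hD : 0 < D} {hB : InjGE e D} {hdiam : ∀ p q : M, dist p q ≤ D}
  {l : ℕ} {X δ Pc Ps : ι → UT E M → E} {ε r : ℝ} {C : Xi F D X δ ε → M}

/-! ### the equivariant functions -/

/-- the complex coordinates of a pair of vectors -/
def zc (x y : EuclideanSpace ℝ ι) (j : Fin (Fintype.card ι)) : ℂ :=
  (x ((Fintype.equivFin ι).symm j) : ℂ) + (y ((Fintype.equivFin ι).symm j) : ℂ) * Complex.I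

theorem zc_rot (θ : ℝ) (x y : EuclideanSpace ℝ ι) (j : Fin (Fintype.card ι)) :
    zc (rx θ x y) (ry θ x y) j = Complex.exp ((θ : ℝ) * Complex.I) * zc x y j := by
  unfold zc rx ry
  rw [Complex.exp_mul_I]
  simp only [PiLp.sub_apply, PiLp.add_apply, PiLp.smul_apply, smul_eq_mul]
  push_cast
  linear_combination (-(Complex.sin θ) * (y ((Fintype.equivFin ι).symm j) : ℂ)) * Complex.I_sq

theorem norm_zc_sq (x y : EuclideanSpace ℝ ι) (j : Fin (Fintype.card ι)) :
    ‖zc x y j‖ ^ 2 = x ((Fintype.equivFin ι).symm j) ^ 2 + y ((Fintype.equivFin ι).symm j) ^ 2 := by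
  unfold zc
  rw [← Complex.normSq_eq_norm_sq, Complex.normSq_add_mul_I]

/-- the lower bound for the largest coordinate of a unit vector -/
def dJ (ι : Type) [Fintype ι] : ℝ := Real.sqrt (1 / Fintype.card ι)

theorem exists_zc {x y : EuclideanSpace ℝ ι} (h : ‖x‖ ^ 2 + ‖y‖ ^ 2 = 1) :
    ∃ j, dJ ι ≤ ‖zc x y j‖ := by
  have h1 : ∑ j, ‖zc x y j‖ ^ 2 = 1 := by
    simp only [norm_zc_sq, Finset.sum_add_distrib]
    rw [Equiv.sum_comp (Fintype.equivFin ι).symm (fun i => x i ^ 2),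
      Equiv.sum_comp (Fintype.equivFin ι).symm (fun i => y i ^ 2), ← h,
      EuclideanSpace.norm_sq_eq, EuclideanSpace.norm_sq_eq]
    simp only [Real.norm_eq_abs, sq_abs]
  by_contra h2
  push Not at h2
  have hne : (Finset.univ : Finset (Fin (Fintype.card ι))).Nonempty := by
    by_contra h3
    rw [Finset.not_nonempty_iff_eq_empty] at h3
    rw [h3, Finset.sum_empty] at h1
    exact zero_ne_one h1
  have hcard : (0 : ℝ) < Fintype.card ι := by
    have := Finset.card_pos.2 hne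
    rw [Finset.card_univ, Fintype.card_fin] at this
    exact_mod_cast this
  have h3 : ∀ j, ‖zc x y j‖ ^ 2 < 1 / Fintype.card ι := by
    intro j
    have h4 := h2 j
    have h5 := pow_lt_pow_left₀ h4 (norm_nonneg _) two_ne_zero
    unfold dJ at h5
    rwa [Real.sq_sqrt (by positivity)] at h5
  have h4 : ∑ j, ‖zc x y j‖ ^ 2 < ∑ j : Fin (Fintype.card ι), (1 / Fintype.card ι : ℝ) :=
    Finset.sum_lt_sum_of_nonempty hne fun j _ => h3 j
  rw [h1, Finset.sum_const, Finset.card_univ, Fintype.card_fin, nsmul_eq_mul,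
    mul_one_div_cancel hcard.ne'] at h4
  exact lt_irrefl _ h4

theorem sm_zc {W : Type*} [NormedAddCommGroup W] [NormedSpace ℝ W]
    {x y : W → EuclideanSpace ℝ ι} {s : W} (hx : Sm x s) (hy : Sm y s)
    (j : Fin (Fintype.card ι)) : Sm (fun q => zc (x q) (y q) j) s := by
  have h1 : ContDiff ℝ ∞ (fun p : EuclideanSpace ℝ ι × EuclideanSpace ℝ ι => zc p.1 p.2 j) := by
    unfold zc
    refine ContDiff.add ?_ (ContDiff.mul ?_ contDiff_const)
    · exact Complex.ofRealCLM.contDiff.comp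
        ((EuclideanSpace.proj ((Fintype.equivFin ι).symm j) :
          EuclideanSpace ℝ ι →L[ℝ] ℝ).contDiff.comp contDiff_fst)
    · exact Complex.ofRealCLM.contDiff.comp
        ((EuclideanSpace.proj ((Fintype.equivFin ι).symm j) :
          EuclideanSpace ℝ ι →L[ℝ] ℝ).contDiff.comp contDiff_snd)
  exact Sm.comp (f := fun p : EuclideanSpace ℝ ι × EuclideanSpace ℝ ι => zc p.1 p.2 j)
    (Sm.of_contDiff h1 _) (hx.prodMk hy)

/-- the circle action of period one on `Y` -/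
abbrev AY (F : Facts e) (hD : 0 < D) (hB : InjGE e D) (hdiam : ∀ p q : M, dist p q ≤ D)
    (X δ : ι → UT E M → E) (ε : ℝ) : CAct (dYY F D X δ ε) := actOf (isFlow_flYY F hD hB hdiam X δ ε)

theorem AY_phi (p : YY F D X δ ε) (t : ℝ) :
    (AY F hD hB hdiam X δ ε).φ p t = flYY F hD hB hdiam X δ ε (p, 4 * D * t) := rfl

/-- the equivariant functions on `Y` -/
def fY (j : Fin (Fintype.card ι)) (p : YY F D X δ ε) : ℂ := zc p.x p.y j

theorem map_fY (j : Fin (Fintype.card ι)) : (dYY F D X δ ε).Map (Dif.lin ℂ) (fY j) := by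
  intro E' _ _ _ u z hu
  exact sm_zc (map_YY_x hu) (map_YY_y hu) j

theorem equi_fY (j : Fin (Fintype.card ι)) : Equi (AY F hD hB hdiam X δ ε) (fY j) := by
  intro p t
  rw [AY_phi]
  unfold fY
  rw [flYY_x, flYY_y]
  simp only
  rw [zc_rot]
  have h1 : om D * (4 * D * t) = 2 * Real.pi * t := by
    rw [← om_per hD]
    ring
  rw [h1]

/-! ### the family -/

/-- **the family of loops over `Y`** -/
def famY (hC : (dXi F D X δ ε).Map (dM E M) C)
    (hmap : ((dYY F D X δ ε).prod (Dif.lin ℝ)).Map (dM E M) (CY C Pc Ps r)) {ρ K : ℝ} (hK : 0 ≤ K)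
    (hlip : ∀ (p : YY F D X δ ε) (s t : ℝ),
      dist (CY C Pc Ps r (flYY F hD hB hdiam X δ ε (p, s), ρ))
        (CY C Pc Ps r (flYY F hD hB hdiam X δ ε (p, t), ρ)) ≤ K * |s - t|)
    {m : ℝ} (hvar : ∀ p : YY F D X δ ε,
      eVariationOn (fun t => CY C Pc Ps r (flYY F hD hB hdiam X δ ε (p, t), ρ))
        (Icc 0 (4 * D)) ≤ ENNReal.ofReal m) :
    S3L.Fam (AY F hD hB hdiam X δ ε) (dM E M) (Real.toNNReal (K * (4 * D))) (ENNReal.ofReal m)
      (dJ ι) (Fintype.card ι) where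
  C p := CY C Pc Ps r (p, ρ)
  F j p := fY j p
  pt p := at_const_YY p 0
  hC := by
    intro E' _ _ _ u z hu
    exact hmap (u := fun s => (u s, ρ)) ⟨hu, Sm.of_contDiff contDiff_const z⟩
  hF := map_fY
  equi := equi_fY
  lip p s t := by
    rw [AY_phi, AY_phi, Real.coe_toNNReal _ (by positivity)]
    refine (hlip p _ _).trans (le_of_eq ?_)
    rw [← mul_sub, abs_mul, abs_of_pos (by positivity : 0 < 4 * D)]
    ring
  var p := by
    have h1 := var_scale (fun t => CY C Pc Ps r (flYY F hD hB hdiam X δ ε (p, t), ρ))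
      (c := 4 * D) (by positivity)
    refine le_trans (le_of_eq ?_) (hvar p)
    exact h1
  cov p := exists_zc p.unit

/-- **S3-Y**: the family over `Y` is a family of loops of variation at most `m < 4 D` -/
theorem exists_famY (hP : ∀ x y : M, dist x y = D → finrank ℝ (H775.Pl e D x y) = l + 1)
    (h : S2N.Fam F hD hB hdiam l X δ ε) (hC : StdX F hD hB hdiam X δ ε r C)
    (hm : MarginX F hD hB hdiam X δ ε C) {ε₁ : ℝ}
    (hPh : PhF F D X δ ε Pc Ps ε₁) (hr1 : 2 * r ≤ ε₁) {ρ : ℝ} (hρ : 0 < ρ) (hρ1 : ρ ≤ ε₁) :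
    ∃ (S : NNReal) (m : ℝ), 0 < m ∧ m < 4 * D ∧
      ∃ Z : S3L.Fam (AY F hD hB hdiam X δ ε) (dM E M) S (ENNReal.ofReal m) (dJ ι)
        (Fintype.card ι), (∀ p, Z.C p = CY C Pc Ps r (p, ρ)) ∧ ∀ j p, Z.F j p = fY j p := by
  have hX : ∀ i, Fld (X i) := fun i => (h.df i).fld
  obtain ⟨m, hm0, hm1, hm2⟩ := exists_margin h hC hm hPh hr1 hρ hρ1
  obtain ⟨K, hK, hlip⟩ := exists_lip hP h hC hPh.fc hPh.fs ρ
  exact ⟨_, m, hm0, hm1, famY (C := C) hC.map (map_CY hC hX hPh.fc hPh.fs) hK hlip hm2,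
    fun _ => rfl, fun _ _ => rfl⟩

end

end Vale.Agent.P231.S3Y
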