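import Vale.Agent.P231.S3Y.XS
import Vale.Agent.P231.S3Y.FamY

/-!
# P231, stage 3, S3-Y: the family of loops over 820's sphere bundle over `Xi`
-/

set_option maxSynthPendingDepth 3
set_option linter.unusedSectionVars false
set_option linter.unusedVariables false

open Bundle Manifold Set Filter Module MeasureTheory Matrix
open scoped ContDiff Manifold Topology ENNReal

namespace Vale.Agent.P231.S3Y

noncomputable section

open Vale.Agent.P234 Vale.Agent.P231 Vale.Agent.P231.Fm Vale.Agent.P231.W Vale.Agent.P231.WR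
open Vale.Agent.P231.WF Vale.Agent.P231.H766 Vale.Agent.P231.S2N Vale.Agent.P231.S3S
open Vale.Agent.P231.S3C Vale.Agent.P231.XC Vale.Agent.P231.X3

variable {ι : Type} [Fintype ι] [DecidableEq ι]

variable {E : Type*} [NormedAddCommGroup E] [NormedSpace ℝ E]
  {M : Type*} [MetricSpace M] [ChartedSpace E M]
  [RiemannianBundle (fun x : M => TangentSpace 𝓘(ℝ, E) x)]
  {e : ∀ x : M, TangentSpace 𝓘(ℝ, E) x → M}
  [FiniteDimensional ℝ E] [IsManifold 𝓘(ℝ, E) ∞ M]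
  [IsContMDiffRiemannianBundle 𝓘(ℝ, E) ∞ E (fun x : M => TangentSpace 𝓘(ℝ, E) x)]
  [CompactSpace M] [ConnectedSpace M] [IsRiemannianManifold 𝓘(ℝ, E) M]

variable {D : ℝ} {F : Facts e} {hD : 0 < D} {hB : InjGE e D} {hdiam : ∀ p q : M, dist p q ≤ D}
  {l : ℕ} {X δ Pc Ps : ι → UT E M → E} {ε r : ℝ} {C : Xi F D X δ ε → M}

/-- the doubled flow on the sphere bundle over `Xi` -/
abbrev flX (F : Facts e) (hD : 0 < D) (hB : InjGE e D) (hdiam : ∀ p q : M, dist p q ≤ D)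
    (X δ : ι → UT E M → E) (ε : ℝ) : XS (pXi F D X δ ε) × ℝ → XS (pXi F D X δ ε) :=
  dbl (flXi F hD hB hdiam X δ ε) (pXi_fl F hD hB hdiam X δ ε) (2 * D)

theorem isFlow_flX (F : Facts e) (hD : 0 < D) (hB : InjGE e D) (hdiam : ∀ p q : M, dist p q ≤ D)
    (X δ : ι → UT E M → E) (ε : ℝ) :
    IsFlow (dX (dXi F D X δ ε) (pXi F D X δ ε)) (2 * (2 * D)) (flX F hD hB hdiam X δ ε) :=
  isFlow_dbl (pXi_fl F hD hB hdiam X δ ε) (by positivity) (isFlow_flXi F hD hB hdiam X δ ε)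

/-- the circle action of period one on the sphere bundle over `Xi` -/
abbrev AX (F : Facts e) (hD : 0 < D) (hB : InjGE e D) (hdiam : ∀ p q : M, dist p q ≤ D)
    (X δ : ι → UT E M → E) (ε : ℝ) : CAct (dX (dXi F D X δ ε) (pXi F D X δ ε)) :=
  actOf (isFlow_flX F hD hB hdiam X δ ε)

theorem toYY_act (p : XS (pXi F D X δ ε)) (t : ℝ) :
    toYY ((AX F hD hB hdiam X δ ε).φ p t) = (AY F hD hB hdiam X δ ε).φ (toYY p) t := by
  change toYY (flX F hD hB hdiam X δ ε (p, 2 * (2 * D) * t)) = _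
  rw [toYY_dbl, AY_phi]
  have h1 : 2 * (2 * D) * t = 4 * D * t := by ring
  rw [h1]

theorem at_const_XS {B : Type*} {DB : Dif B} {P : B → Matrix ι ι ℝ} (p : XS P)
    {V : Type} [NormedAddCommGroup V] [NormedSpace ℝ V] [FiniteDimensional ℝ V] {s : V}
    (h : DB.At (fun _ : V => p.b) s) : (dX DB P).At (fun _ : V => p) s :=
  ⟨h, Sm.of_contDiff (contDiff_const (c := p.z)) _⟩

theorem at_const_XSXi (p : XS (pXi F D X δ ε)) {V : Type} [NormedAddCommGroup V]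
    [NormedSpace ℝ V] [FiniteDimensional ℝ V] (s : V) :
    (dX (dXi F D X δ ε) (pXi F D X δ ε)).At (fun _ : V => p) s :=
  at_const_XS p (at_const_Xi p.b s)

/-- the family over the sphere bundle over `Xi` -/
def CX (C : Xi F D X δ ε → M) (Pc Ps : ι → UT E M → E) (r : ℝ) (q : XS (pXi F D X δ ε) × ℝ) : M :=
  CY C Pc Ps r (toYY q.1, q.2)

theorem map_CX (hC : StdX F hD hB hdiam X δ ε r C) (hX : ∀ i, Fld (X i)) (hc : ∀ i, Fld (Pc i))
    (hs : ∀ i, Fld (Ps i)) :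
    ((dX (dXi F D X δ ε) (pXi F D X δ ε)).prod (Dif.lin ℝ)).Map (dM E M) (CX C Pc Ps r) := by
  intro E' _ _ _ u s hu
  have h1 : (dYY F D X δ ε).At (fun q => toYY (u q).1) s := map_toYY hu.1
  have h2 : ((dYY F D X δ ε).prod (Dif.lin ℝ)).At (fun q => (toYY (u q).1, (u q).2)) s :=
    ⟨h1, hu.2⟩
  have h3 : (dM E M).At (fun q => CY C Pc Ps r (toYY (u q).1, (u q).2)) s :=
    map_CY hC hX hc hs h2
  exact h3

/-- for `ρ = 0` one has the standard family (doubled) -/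
theorem CX_zero (hC : StdX F hD hB hdiam X δ ε r C) (p : XS (pXi F D X δ ε)) :
    CX C Pc Ps r (p, 0) = C p.b := by
  have h1 : CY C Pc Ps r (toYY p, 0) = C (toXi (toYY p)) := CY_zero hC (toYY p)
  rw [toXi_toYY] at h1
  exact h1

/-- the loops of the family are constant for `1 ≤ ‖a‖` -/
theorem CX_inv (hC : StdX F hD hB hdiam X δ ε r C) {p : XS (pXi F D X δ ε)} (h : 1 ≤ ‖p.b.a‖)
    (ρ t : ℝ) : CX C Pc Ps r (flX F hD hB hdiam X δ ε (p, t), ρ) = CX C Pc Ps r (p, ρ) := by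
  have h1 : 1 ≤ ‖(toYY p).a‖ := h
  have h2 : CY C Pc Ps r (flYY F hD hB hdiam X δ ε (toYY p, t), ρ) = CY C Pc Ps r (toYY p, ρ) :=
    CY_inv hC h1 ρ t
  have h3 : toYY (flX F hD hB hdiam X δ ε (p, t)) = flYY F hD hB hdiam X δ ε (toYY p, t) :=
    toYY_dbl (p, t)
  unfold CX
  simp only
  rw [h3]
  exact h2

/-- for `1 ≤ ‖a‖` the family does not depend on `ρ` -/
theorem CX_far (hC : StdX F hD hB hdiam X δ ε r C) {p : XS (pXi F D X δ ε)}
    (h : 2 * r ^ 2 ≤ ‖p.b.a‖ ^ 2) (ρ : ℝ) : CX C Pc Ps r (p, ρ) = C p.b := by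
  have h1 : 2 * r ^ 2 ≤ ‖(toYY p).a‖ ^ 2 := h
  have h2 : CY C Pc Ps r (toYY p, ρ) = C (toXi (toYY p)) := CY_ge hC (q := (toYY p, ρ)) h1
  rw [toXi_toYY] at h2
  exact h2

/-- **S3-Y over the sphere bundle over `Xi`** -/
theorem exists_famX (hP : ∀ x y : M, dist x y = D → finrank ℝ (H775.Pl e D x y) = l + 1)
    (h : S2N.Fam F hD hB hdiam l X δ ε) (hC : StdX F hD hB hdiam X δ ε r C)
    (hm : MarginX F hD hB hdiam X δ ε C) {ε₁ : ℝ}
    (hPh : PhF F D X δ ε Pc Ps ε₁) (hr1 : 2 * r ≤ ε₁) {ρ : ℝ} (hρ : 0 < ρ) (hρ1 : ρ ≤ ε₁) :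
    ∃ (S : NNReal) (m : ℝ), 0 < m ∧ m < 4 * D ∧
      ∃ Z : S3L.Fam (AX F hD hB hdiam X δ ε) (dM E M) S (ENNReal.ofReal m) (dJ ι)
        (Fintype.card ι), (∀ p, Z.C p = CX C Pc Ps r (p, ρ)) ∧
          ∀ j p, Z.F j p = p.z ((Fintype.equivFin ι).symm j) := by
  obtain ⟨S, m, h1, h2, Z, h3, h4⟩ := exists_famY hP h hC hm hPh hr1 hρ hρ1
  refine ⟨S, m, h1, h2, Z.pb toYY map_toYY toYY_act fun p => at_const_XSXi p 0,
    fun p => h3 (toYY p), fun j p => (h4 j (toYY p)).trans ?_⟩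
  exact Complex.re_add_im _

end

end Vale.Agent.P231.S3Y
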