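import Vale.Agent.P231.S3Y.Tot2
import Vale.Agent.P231.S3E2.Uni

/-!
# P231, stage 3, S3-Y: the fields of S3-A satisfy `PhF`
-/

set_option maxSynthPendingDepth 3
set_option linter.unusedSectionVars false
set_option linter.unusedVariables false

open Bundle Manifold Set Filter Module MeasureTheory
open scoped ContDiff Manifold Topology ENNReal

namespace Vale.Agent.P231.S3Y

noncomputable section

open Vale.Agent.P234 Vale.Agent.P231 Vale.Agent.P231.Fm Vale.Agent.P231.W Vale.Agent.P231.WR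
open Vale.Agent.P231.WF Vale.Agent.P231.H766 Vale.Agent.P231.S2N Vale.Agent.P231.S3S

variable {E : Type*} [NormedAddCommGroup E] [NormedSpace ℝ E]
  {M : Type*} [MetricSpace M] [ChartedSpace E M]
  [RiemannianBundle (fun x : M => TangentSpace 𝓘(ℝ, E) x)]
  {e : ∀ x : M, TangentSpace 𝓘(ℝ, E) x → M}
  [FiniteDimensional ℝ E] [IsManifold 𝓘(ℝ, E) ∞ M]
  [IsContMDiffRiemannianBundle 𝓘(ℝ, E) ∞ E (fun x : M => TangentSpace 𝓘(ℝ, E) x)]
  [CompactSpace M] [ConnectedSpace M] [IsRiemannianManifold 𝓘(ℝ, E) M]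

variable {D : ℝ} {ι : Type} [Fintype ι] [DecidableEq ι]

variable {F : Facts e} {hD : 0 < D} {hB : InjGE e D} {hdiam : ∀ p q : M, dist p q ≤ D}
  {l : ℕ} {X δ Pc Ps : ι → UT E M → E} {ε : ℝ} {W : ι → UT E M → E}

/-- the curves of S3-A are the pushed doubled geodesics -/
theorem cv_eq_kY (v : UT E M) (w : Wp ι) (t : ℝ) :
    S3E2.cv F D X Pc Ps v w t = kY F D X Pc Ps ((v, w), t) := rfl

theorem enC_eq_eY (v : UT E M) (w : Wp ι) : S3E2.enC F D X Pc Ps v w = eY F D X Pc Ps (v, w) :=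
  rfl

/-- **the fields of S3-A give `PhF`**, with a quadratic energy bound -/
theorem exists_phF (hP : ∀ x y : M, dist x y = D → finrank ℝ (H775.Pl e D x y) = l + 1)
    (hf : Fam F hD hB hdiam l X δ ε) (hW : S3E2.IsW F hD hB hdiam X δ ε W)
    (hPc : ∀ i, Fld (Pc i)) (hPs : ∀ i, Fld (Ps i)) (hd : ∀ v (x y : EuclideanSpace ℝ ι) t,
      XX Pc (Real.cos (Real.pi / (2 * D) * t) • x - Real.sin (Real.pi / (2 * D) * t) • y)
        (phi F (v, t)) +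
      XX Ps (Real.sin (Real.pi / (2 * D) * t) • x + Real.cos (Real.pi / (2 * D) * t) • y)
        (phi F (v, t)) = S3E2.zF F D v (S3E2.Uz F D W v x y) t) :
    ∃ ε₁ c : ℝ, 0 < c ∧ PhF F D X δ ε Pc Ps ε₁ ∧ ∀ (v : UT E M) (w : Wp ι),
      Pm F D X δ ε v w.1 = w.1 → Pm F D X δ ε v w.2.1 = w.2.1 → Pm F D X δ ε v w.2.2 = w.2.2 →
      ‖w‖ ≤ ε₁ → eY F D X Pc Ps (v, w) ≤ 4 * D - c * ‖w‖ ^ 2 := by
  obtain ⟨ε₁, c, h1, h2, h3⟩ := S3E2.exists_energy hP hf hW hPc hPs hd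
  refine ⟨ε₁, c, h2, ⟨hPc, hPs, h1, fun v a x y ha hx hy h0 na nx ny => ?_⟩, h3⟩
  have h4 : ‖((a, (x, y)) : Wp ι)‖ ≤ ε₁ := by
    rw [Prod.norm_def, Prod.norm_def]
    exact max_le na (max_le nx ny)
  have h5 : 0 < ‖((a, (x, y)) : Wp ι)‖ := norm_pos_iff.2 h0
  have h6 := h3 v (a, (x, y)) ha hx hy h4
  rw [enC_eq_eY] at h6
  have h7 : 0 < c * ‖((a, (x, y)) : Wp ι)‖ ^ 2 := by positivity
  linarith

end

end Vale.Agent.P231.S3Y
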