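import Vale.Agent.P231.S3Y.FamX
import Vale.Agent.P231.S3B1.LHt

/-!
# P231, stage 3, S3-Y: the family over the total space of `ξ ⊕ E'`

`TY` is the space of the `(v, a, x, y)`, `a, x, y ∈ Em v`; the family `CT` is smooth across
`(x, y) = 0` and `CY (p, ρ) = CT (v, a, ρ x, ρ y)`.
-/

set_option maxSynthPendingDepth 3
set_option linter.unusedSectionVars false
set_option linter.unusedVariables false

open Bundle Manifold Set Filter Module MeasureTheory
open scoped ContDiff Manifold Topology ENNReal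

namespace Vale.Agent.P231.S3Y

noncomputable section

open Vale.Agent.P234 Vale.Agent.P231 Vale.Agent.P231.Fm Vale.Agent.P231.W Vale.Agent.P231.WR
open Vale.Agent.P231.WF Vale.Agent.P231.H766 Vale.Agent.P231.S2N Vale.Agent.P231.S3S

variable {E : Type*} [NormedAddCommGroup E] [NormedSpace ℝ E]
  {M : Type*} [MetricSpace M] [ChartedSpace E M]
  [RiemannianBundle (fun x : M => TangentSpace 𝓘(ℝ, E) x)]
  {e : ∀ x : M, TangentSpace 𝓘(ℝ, E) x → M}
  [FiniteDimensional ℝ E] [IsManifold 𝓘(ℝ, E) ∞ M]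
  [IsContMDiffRiemannianBundle 𝓘(ℝ, E) ∞ E (fun x : M => TangentSpace 𝓘(ℝ, E) x)]
  [CompactSpace M] [ConnectedSpace M] [IsRiemannianManifold 𝓘(ℝ, E) M]

variable {D : ℝ} {ι : Type} [Fintype ι] [DecidableEq ι]

/-- the total space of `ξ ⊕ E'` over `UT` -/
@[ext]
structure TY (F : Facts e) (D : ℝ) (X δ : ι → UT E M → E) (ε : ℝ) where
  /-- the geodesic -/
  v : UT E M
  /-- the negative direction -/
  a : EuclideanSpace ℝ ι
  /-- the real part -/
  x : EuclideanSpace ℝ ι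
  /-- the imaginary part -/
  y : EuclideanSpace ℝ ι
  pa : Pm F D X δ ε v a = a
  px : Pm F D X δ ε v x = x
  py : Pm F D X δ ε v y = y

variable {F : Facts e} {hD : 0 < D} {hB : InjGE e D} {hdiam : ∀ p q : M, dist p q ≤ D}
  {l : ℕ} {X δ Pc Ps : ι → UT E M → E} {ε r : ℝ} {C : Xi F D X δ ε → M}

/-- the diffeology of the total space -/
def dTY (F : Facts e) (D : ℝ) (X δ : ι → UT E M → E) (ε : ℝ) : Dif (TY F D X δ ε) :=
  ((dUT E M).prod (Dif.lin (Wp ι))).ind fun p => (p.v, (p.a, (p.x, p.y)))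

/-- the vector of a point of the total space -/
def TY.w (p : TY F D X δ ε) : Wp ι := (p.a, (p.x, p.y))

theorem at_TY {E' : Type} [NormedAddCommGroup E'] [NormedSpace ℝ E'] [FiniteDimensional ℝ E']
    {u : E' → TY F D X δ ε} {s : E'} : (dTY F D X δ ε).At u s ↔
      (dUT E M).At (fun q => (u q).v) s ∧ Sm (fun q => (u q).a) s ∧ Sm (fun q => (u q).x) s ∧
        Sm (fun q => (u q).y) s := by
  constructor
  · intro h
    have h2 : Sm (fun q => ((u q).a, ((u q).x, (u q).y))) s := h.2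
    have h3 : Sm (fun q => ((u q).x, (u q).y)) s :=
      Sm.comp (f := Prod.snd) (Sm.of_contDiff contDiff_snd _) h2
    exact ⟨h.1, Sm.comp (f := Prod.fst) (Sm.of_contDiff contDiff_fst _) h2,
      Sm.comp (f := Prod.fst) (Sm.of_contDiff contDiff_fst _) h3,
      Sm.comp (f := Prod.snd) (Sm.of_contDiff contDiff_snd _) h3⟩
  · rintro ⟨h1, h2, h3, h4⟩
    exact ⟨h1, h2.prodMk (h3.prodMk h4)⟩

theorem at_const_TY (p : TY F D X δ ε) {V : Type} [NormedAddCommGroup V] [NormedSpace ℝ V]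
    [FiniteDimensional ℝ V] (s : V) : (dTY F D X δ ε).At (fun _ : V => p) s :=
  at_TY.2 ⟨H583.at_const p.v s, Sm.of_contDiff (contDiff_const (c := p.a)) _,
    Sm.of_contDiff (contDiff_const (c := p.x)) _, Sm.of_contDiff (contDiff_const (c := p.y)) _⟩

/-- the projection `(v, a, x, y) ↦ (v, a)` -/
def toXiT (p : TY F D X δ ε) : Xi F D X δ ε := ⟨p.v, p.a, p.pa⟩

theorem map_toXiT : (dTY F D X δ ε).Map (dXi F D X δ ε) toXiT := fun h =>
  ⟨(at_TY.1 h).1, (at_TY.1 h).2.1⟩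

/-- the point of size `ρ` in the direction of a point of `Y` -/
def scT (q : YY F D X δ ε × ℝ) : TY F D X δ ε where
  v := q.1.v
  a := q.1.a
  x := q.2 • q.1.x
  y := q.2 • q.1.y
  pa := q.1.pa
  px := by rw [map_smul, q.1.px]
  py := by rw [map_smul, q.1.py]

theorem map_scT : ((dYY F D X δ ε).prod (Dif.lin ℝ)).Map (dTY F D X δ ε) scT := by
  intro E' _ _ _ u s hu
  obtain ⟨h1, h2, h3, h4⟩ := at_YY.1 hu.1
  have h5 : Sm (fun q => (u q).2) s := hu.2
  refine at_TY.2 ⟨h1, h2, ?_, ?_⟩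
  · filter_upwards [h5, h3] with q k1 k2 using k1.smul k2
  · filter_upwards [h5, h4] with q k1 k2 using k1.smul k2

/-- the doubled flow on the total space -/
def flTY (F : Facts e) (hD : 0 < D) (hB : InjGE e D) (hdiam : ∀ p q : M, dist p q ≤ D)
    (X δ : ι → UT E M → E) (ε : ℝ) (q : TY F D X δ ε × ℝ) : TY F D X δ ε where
  v := phi F (q.1.v, q.2)
  a := q.1.a
  x := rx (om D * q.2) q.1.x q.1.y
  y := ry (om D * q.2) q.1.x q.1.y
  pa := by rw [Fam.Pm_phi F hD hB hdiam, q.1.pa]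
  px := by
    rw [Fam.Pm_phi F hD hB hdiam]
    exact (map_rot _ _ q.1.px q.1.py).1
  py := by
    rw [Fam.Pm_phi F hD hB hdiam]
    exact (map_rot _ _ q.1.px q.1.py).2

section Fl

variable (F : Facts e) (hD : 0 < D) (hB : InjGE e D)
    (hdiam : ∀ p q : M, dist p q ≤ D) (X δ : ι → UT E M → E) (ε : ℝ)

@[simp] theorem flTY_v (q : TY F D X δ ε × ℝ) :
    (flTY F hD hB hdiam X δ ε q).v = phi F (q.1.v, q.2) := rfl

@[simp] theorem flTY_a (q : TY F D X δ ε × ℝ) : (flTY F hD hB hdiam X δ ε q).a = q.1.a := rfl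

@[simp] theorem flTY_x (q : TY F D X δ ε × ℝ) :
    (flTY F hD hB hdiam X δ ε q).x = rx (om D * q.2) q.1.x q.1.y := rfl

@[simp] theorem flTY_y (q : TY F D X δ ε × ℝ) :
    (flTY F hD hB hdiam X δ ε q).y = ry (om D * q.2) q.1.x q.1.y := rfl

theorem isFlow_flTY : IsFlow (dTY F D X δ ε) (4 * D) (flTY F hD hB hdiam X δ ε) where
  map := by
    intro E' _ _ _ u s hu
    obtain ⟨h1, h0, h2, h3⟩ := at_TY.1 hu.1
    have h4 : Sm (fun q => (u q).2) s := hu.2
    have h5 : Sm (fun q => om D * (u q).2) s := by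
      filter_upwards [h4] with q hq using contDiffAt_const.mul hq
    exact at_TY.2 ⟨map_phi F (u := fun s => ((u s).1.v, (u s).2)) ⟨h1, h4⟩, h0, sm_rx h5 h2 h3,
      sm_ry h5 h2 h3⟩
  zero p := TY.ext (phi_zero F p.v) rfl (by simp [rx_zero]) (by simp [ry_zero])
  add p s t := TY.ext (phi_add F p.v s t) rfl (by simp [rx_add, mul_add])
    (by simp [ry_add, mul_add])
  per p := TY.ext (phi_four F hD hB hdiam p.v) rfl (by
      rw [flTY_x]
      simp only
      rw [om_per hD, rx_two_pi]) (by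
      rw [flTY_y]
      simp only
      rw [om_per hD, ry_two_pi])

theorem scT_flYY (p : YY F D X δ ε) (ρ t : ℝ) : scT (flYY F hD hB hdiam X δ ε (p, t), ρ) =
    flTY F hD hB hdiam X δ ε (scT (p, ρ), t) :=
  TY.ext rfl rfl (rx_smul ρ (om D * t) p.x p.y).symm (ry_smul ρ (om D * t) p.x p.y).symm

end Fl

/-- the parameters of the push -/
def wT (r : ℝ) (w : Wp ι) : Wp ι := (w.1, (chi r w.1 • w.2.1, chi r w.1 • w.2.2))

theorem contDiff_wT (r : ℝ) : ContDiff ℝ ∞ (wT (ι := ι) r) := by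
  have h1 : ContDiff ℝ ∞ (fun w : Wp ι => chi r w.1) := (contDiff_chi r).comp contDiff_fst
  exact contDiff_fst.prodMk ((h1.smul (contDiff_fst.comp contDiff_snd)).prodMk
    (h1.smul (contDiff_snd.comp contDiff_snd)))

/-- **the family over the total space** -/
def CT (C : Xi F D X δ ε → M) (Pc Ps : ι → UT E M → E) (r : ℝ) (p : TY F D X δ ε) : M :=
  open Classical in
  if ‖p.a‖ ^ 2 < 3 * r ^ 2 then gY e X Pc Ps p.v (wT r p.w) else C (toXiT p)

theorem CT_lt {p : TY F D X δ ε} (h : ‖p.a‖ ^ 2 < 3 * r ^ 2) :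
    CT C Pc Ps r p = gY e X Pc Ps p.v (wT r p.w) := if_pos h

theorem wT_of_zero {w : Wp ι} (h : chi r w.1 = 0) : wT r w = (w.1, (0, 0)) := by
  unfold wT
  rw [h, zero_smul, zero_smul]

/-- the family over `Y × ℝ` is the restriction of the family over the total space -/
theorem CY_eq_CT (p : YY F D X δ ε) (ρ : ℝ) : CY C Pc Ps r (p, ρ) = CT C Pc Ps r (scT (p, ρ)) := by
  have h1 : wT r (scT (p, ρ)).w = wY r (p, ρ) := by
    unfold wT wY TY.w scT
    simp only [smul_smul]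
    rw [mul_comm (chi r p.a) ρ]
  unfold CY CT
  rw [h1]
  rfl

variable (hC : StdX F hD hB hdiam X δ ε r C)

include hC

theorem CT_ge {p : TY F D X δ ε} (h : 2 * r ^ 2 ≤ ‖p.a‖ ^ 2) :
    CT C Pc Ps r p = C (toXiT p) := by
  by_cases h1 : ‖p.a‖ ^ 2 < 3 * r ^ 2
  · have hr := hC.pos
    have h2 : wT r p.w = (p.a, (0, 0)) := wT_of_zero (w := p.w) (chi_zero hr h)
    rw [CT_lt h1, h2, gY_zero]
    refine (hC.small (toXiT p) ?_).symm
    change ‖p.a‖ ≤ _
    nlinarith [norm_nonneg p.a]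
  · unfold CT
    rw [if_neg h1]

/-- for `(x, y) = 0` one has the standard family -/
theorem CT_zero (p : Xi F D X δ ε) :
    CT C Pc Ps r ⟨p.v, p.a, 0, 0, p.pm, map_zero _, map_zero _⟩ = C p := by
  by_cases h1 : ‖p.a‖ ^ 2 < 3 * r ^ 2
  · have hr := hC.pos
    rw [CT_lt (p := ⟨p.v, p.a, 0, 0, p.pm, map_zero _, map_zero _⟩) h1]
    unfold wT TY.w
    simp only [smul_zero]
    rw [gY_zero]
    refine (hC.small p ?_).symm
    nlinarith [norm_nonneg p.a]
  · unfold CT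
    rw [if_neg h1]
    rfl

/-- the family is smooth -/
theorem map_CT (hX : ∀ i, Fld (X i)) (hc : ∀ i, Fld (Pc i)) (hs : ∀ i, Fld (Ps i)) :
    (dTY F D X δ ε).Map (dM E M) (CT C Pc Ps r) := by
  intro E' _ _ _ u z hu
  have hr := hC.pos
  obtain ⟨h1, h2, h3, h4⟩ := at_TY.1 hu
  have hn0 : ContinuousAt (fun s => (u s).a) z := h2.continuousAt
  have hn : ContinuousAt (fun s => ‖(u s).a‖ ^ 2) z := hn0.norm.pow 2
  by_cases hz : ‖(u z).a‖ ^ 2 < 3 * r ^ 2
  · have h6 : Sm (fun s => chi r (u s).a) z := by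
      filter_upwards [h2] with s k2
      exact (contDiff_chi r).contDiffAt.comp s k2
    have h7 : Sm (fun s => chi r (u s).a • (u s).x) z := by
      filter_upwards [h6, h3] with s k1 k2 using k1.smul k2
    have h8 : Sm (fun s => chi r (u s).a • (u s).y) z := by
      filter_upwards [h6, h4] with s k1 k2 using k1.smul k2
    refine (dM E M).congr (at_gY F hX hc hs h1 h2 h7 h8) ?_
    filter_upwards [hn.eventually_lt_const hz] with s hs'
    exact (CT_lt hs').symm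
  · have hz' : 2 * r ^ 2 < ‖(u z).a‖ ^ 2 := by
      have := not_lt.1 hz
      nlinarith
    refine (dM E M).congr (hC.map (map_toXiT hu)) ?_
    filter_upwards [hn.eventually_const_lt hz'] with s hs'
    exact (CT_ge hC hs'.le).symm

omit hC in
/-- the loops of the family near the zero section -/
theorem CT_fl_lt {p : TY F D X δ ε} (h : ‖p.a‖ ^ 2 < 3 * r ^ 2) (t : ℝ) :
    CT C Pc Ps r (flTY F hD hB hdiam X δ ε (p, t)) =
      kY F D X Pc Ps ((p.v, wT r p.w), t) := by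
  rw [CT_lt (p := flTY F hD hB hdiam X δ ε (p, t)) h]
  unfold kY wT rW TY.w
  simp only [flTY_v, flTY_a, flTY_x, flTY_y, rx_smul, ry_smul]

/-- the loops of the family far from the zero section -/
theorem CT_fl_ge {p : TY F D X δ ε} (h : 2 * r ^ 2 ≤ ‖p.a‖ ^ 2) (t : ℝ) :
    CT C Pc Ps r (flTY F hD hB hdiam X δ ε (p, t)) =
      C (flXi F hD hB hdiam X δ ε (toXiT p, t)) :=
  CT_ge hC (p := flTY F hD hB hdiam X δ ε (p, t)) h

/-- the loops of the family are constant for `1 ≤ ‖a‖` -/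
theorem CT_inv {p : TY F D X δ ε} (h : 1 ≤ ‖p.a‖) (t : ℝ) :
    CT C Pc Ps r (flTY F hD hB hdiam X δ ε (p, t)) = CT C Pc Ps r p := by
  have h1 := hC.le
  have h2 := hC.pos
  have h3 : 2 * r ^ 2 ≤ ‖p.a‖ ^ 2 := by nlinarith [norm_nonneg p.a]
  rw [CT_fl_ge hC h3, CT_ge hC h3]
  exact hC.inv (toXiT p) t h

omit hC

/-- the loops of period one -/
def cT (F : Facts e) (hD : 0 < D) (hB : InjGE e D) (hdiam : ∀ p q : M, dist p q ≤ D)
    (X δ : ι → UT E M → E) (ε : ℝ) (C : Xi F D X δ ε → M) (Pc Ps : ι → UT E M → E) (r : ℝ)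
    (p : TY F D X δ ε) (t : ℝ) : M := CT C Pc Ps r (flTY F hD hB hdiam X δ ε (p, 4 * D * t))

theorem cT_per (p : TY F D X δ ε) (t : ℝ) :
    cT F hD hB hdiam X δ ε C Pc Ps r p (t + 1) = cT F hD hB hdiam X δ ε C Pc Ps r p t := by
  have h := isFlow_flTY F hD hB hdiam X δ ε
  unfold cT
  rw [mul_add, mul_one, add_comm, ← h.add, h.per]

theorem map_cT (hC : StdX F hD hB hdiam X δ ε r C) (hX : ∀ i, Fld (X i)) (hc : ∀ i, Fld (Pc i))
    (hs : ∀ i, Fld (Ps i)) : ((dTY F D X δ ε).prod (Dif.lin ℝ)).Map (dM E M)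
      (fun q => cT F hD hB hdiam X δ ε C Pc Ps r q.1 q.2) := by
  intro E' _ _ _ u z hu
  have h1 := (isFlow_flTY F hD hB hdiam X δ ε).map (map_scale (D := dTY F D X δ ε) (4 * D) hu)
  exact map_CT hC hX hc hs h1

/-- the loops of the family over `Y` -/
theorem CY_loop (p : YY F D X δ ε) (ρ t : ℝ) :
    CY C Pc Ps r ((AY F hD hB hdiam X δ ε).φ p t, ρ) =
      cT F hD hB hdiam X δ ε C Pc Ps r (scT (p, ρ)) t := by
  rw [AY_phi, CY_eq_CT, scT_flYY]
  rfl

end

end Vale.Agent.P231.S3Y
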