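import Vale.Agent.P231.S3Y.Tot

/-!
# P231, stage 3, S3-Y: the family over the total space: Lipschitz bound, lengths, margins
-/

set_option maxSynthPendingDepth 3
set_option linter.unusedSectionVars false
set_option linter.unusedVariables false

open Bundle Manifold Set Filter Module MeasureTheory
open scoped ContDiff Manifold Topology ENNReal

namespace Vale.Agent.P231.S3Y

noncomputable section

open Vale.Agent.P234 Vale.Agent.P231 Vale.Agent.P231.Fm Vale.Agent.P231.W Vale.Agent.P231.WR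
open Vale.Agent.P231.WF Vale.Agent.P231.H766 Vale.Agent.P231.S2N Vale.Agent.P231.S3S

/-! ### one more equivariant function -/

section Snoc

variable {M : Type*} [MetricSpace M] {DM : Dif M} {S : NNReal} {V : ℝ≥0∞} {δ : ℝ} {J : ℕ}
  {B : Type*} {DB : Dif B} {A : CAct DB}

/-- a family with one more function, equal to zero -/
def snoc0 (Z : S3L.Fam A DM S V δ J) : S3L.Fam A DM S V δ (J + 1) where
  C := Z.C
  F := fun j b => Fin.snoc (α := fun _ => ℂ) (fun i => Z.F i b) 0 j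
  pt := Z.pt
  hC := Z.hC
  hF := by
    refine Fin.lastCases ?_ fun j => ?_
    · intro E' _ _ _ u s hu
      have h1 : (fun b => Fin.snoc (α := fun _ => ℂ) (fun i => Z.F i b) 0 (Fin.last J)) =
          fun _ => (0 : ℂ) := funext fun b => Fin.snoc_last _ _
      rw [h1]
      exact Sm.of_contDiff (contDiff_const (c := (0 : ℂ))) s
    · intro E' _ _ _ u s hu
      have h1 : (fun b => Fin.snoc (α := fun _ => ℂ) (fun i => Z.F i b) 0 (Fin.castSucc j)) =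
          Z.F j := funext fun b => by rw [Fin.snoc_castSucc]
      rw [h1]
      exact Z.hF j hu
  equi := by
    refine Fin.lastCases ?_ fun j => ?_
    · intro b t
      simp only [Fin.snoc_last, mul_zero]
    · intro b t
      simp only [Fin.snoc_castSucc]
      exact Z.equi j b t
  lip := Z.lip
  var := Z.var
  cov b := by
    obtain ⟨j, hj⟩ := Z.cov b
    refine ⟨Fin.castSucc j, ?_⟩
    simp only [Fin.snoc_castSucc]
    exact hj

theorem snoc0_C (Z : S3L.Fam A DM S V δ J) (b : B) : (snoc0 Z).C b = Z.C b := rfl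

theorem snoc0_castSucc (Z : S3L.Fam A DM S V δ J) (j : Fin J) (b : B) :
    (snoc0 Z).F (Fin.castSucc j) b = Z.F j b :=
  Fin.snoc_castSucc (α := fun _ => ℂ) (x := 0) (p := fun i => Z.F i b) (i := j)

theorem snoc0_last (Z : S3L.Fam A DM S V δ J) (b : B) : (snoc0 Z).F (Fin.last J) b = 0 :=
  Fin.snoc_last (α := fun _ => ℂ) (x := 0) (p := fun i => Z.F i b)

end Snoc

variable {E : Type*} [NormedAddCommGroup E] [NormedSpace ℝ E]
  {M : Type*} [MetricSpace M] [ChartedSpace E M]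
  [RiemannianBundle (fun x : M => TangentSpace 𝓘(ℝ, E) x)]
  {e : ∀ x : M, TangentSpace 𝓘(ℝ, E) x → M}
  [FiniteDimensional ℝ E] [IsManifold 𝓘(ℝ, E) ∞ M]
  [IsContMDiffRiemannianBundle 𝓘(ℝ, E) ∞ E (fun x : M => TangentSpace 𝓘(ℝ, E) x)]
  [CompactSpace M] [ConnectedSpace M] [IsRiemannianManifold 𝓘(ℝ, E) M]

variable {D : ℝ} {ι : Type} [Fintype ι] [DecidableEq ι]

variable {F : Facts e} {hD : 0 < D} {hB : InjGE e D} {hdiam : ∀ p q : M, dist p q ≤ D}
  {l : ℕ} {X δ Pc Ps : ι → UT E M → E} {ε r : ℝ} {C : Xi F D X δ ε → M}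

/-! ### the doubled geodesics -/

theorem kY_zero (F : Facts e) (X Pc Ps : ι → UT E M → E) (v : UT E M) (t : ℝ) :
    kY F D X Pc Ps ((v, (0, (0, 0))), t) = gm e (v, t) := by
  have h1 : rW D ((0, (0, 0)) : Wp ι) t = (0, (0, 0)) := by
    unfold rW rx ry
    simp only [smul_zero, sub_zero, add_zero]
  unfold kY
  rw [h1, gY_zero]
  unfold linX
  rw [XX_zero']
  exact F.isExp.map_zero _

/-- the energy of the doubled geodesics -/
theorem eY_zero (F : Facts e) (D : ℝ) (X Pc Ps : ι → UT E M → E) (v : UT E M) :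
    eY F D X Pc Ps (v, (0, (0, 0))) = 4 * D := by
  have h1 : ∀ t, sY F D X Pc Ps ((v, (0, (0, 0))), t) = 1 := by
    intro t
    have e1 : (fun s => kY F D X Pc Ps ((v, (0, (0, 0))), s)) = fun s => gm e (v, s) :=
      funext fun s => kY_zero F X Pc Ps v s
    have e2 : (WC.vl (fun s => gm e (v, s)) t : E) = vec' (phi F (v, t)) :=
      mfderiv_gam F.isExp (foot v) (vec' v) t
    unfold sY
    rw [e1, e2, kY_zero F]
    have h5 : nm (gm e (v, t)) (vec' (phi F (v, t))) = 1 := nm_vec' (phi F (v, t))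
    rw [h5, one_pow]
  unfold eY
  simp only [h1, intervalIntegral.integral_const, sub_zero, smul_eq_mul, mul_one]

/-- the loop over the zero vector is the doubled geodesic -/
theorem cT_zero (hr : 0 < r) {p : TY F D X δ ε} (h : p.w = (0, (0, 0))) (t : ℝ) :
    cT F hD hB hdiam X δ ε C Pc Ps r p t = gm e (p.v, 4 * D * t) := by
  have h0 : p.a = 0 := congrArg Prod.fst h
  have h1 : ‖p.a‖ ^ 2 < 3 * r ^ 2 := by
    rw [h0, norm_zero]
    nlinarith
  unfold cT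
  rw [CT_fl_lt h1, h]
  have h2 : wT r ((0, (0, 0)) : Wp ι) = (0, (0, 0)) := by
    unfold wT
    simp only [smul_zero]
  rw [h2, kY_zero]

/-! ### Lipschitz bound -/

/-- **uniform Lipschitz bound** -/
theorem exists_lipT (hP : ∀ x y : M, dist x y = D → finrank ℝ (H775.Pl e D x y) = l + 1)
    (h : S2N.Fam F hD hB hdiam l X δ ε) (hC : StdX F hD hB hdiam X δ ε r C)
    (hc : ∀ i, Fld (Pc i)) (hs : ∀ i, Fld (Ps i)) (R : ℝ) :
    ∃ K, 0 ≤ K ∧ ∀ p : TY F D X δ ε, ‖p.x‖ ^ 2 + ‖p.y‖ ^ 2 ≤ R ^ 2 → ∀ s t : ℝ,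
      dist (CT C Pc Ps r (flTY F hD hB hdiam X δ ε (p, s)))
        (CT C Pc Ps r (flTY F hD hB hdiam X δ ε (p, t))) ≤ K * |s - t| := by
  have hr := hC.pos
  have hX : ∀ i, Fld (X i) := fun i => (h.df i).fld
  obtain ⟨K₁, hK₁, h1⟩ := exists_sp_near (F := F) (D := D) hX hc hs (max (2 * r) |R|)
  obtain ⟨K₂, hK₂, h2⟩ := exists_sp_far hP h hC.map
  refine ⟨max K₁ K₂, le_max_of_le_left hK₁, fun p hpR s t => ?_⟩
  by_cases hp : ‖p.a‖ ^ 2 < 3 * r ^ 2
  · rw [CT_fl_lt hp, CT_fl_lt hp]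
    refine (dist_le_of_sp (cmd_kY F hX hc hs p.v (wT r p.w)) (h1 p.v (wT r p.w) ?_ ?_ ?_)
      s t).trans (mul_le_mul_of_nonneg_right (le_max_left _ _) (abs_nonneg _))
    · refine le_trans ?_ (le_max_left _ _)
      change ‖p.a‖ ≤ 2 * r
      nlinarith [norm_nonneg p.a]
    · exact le_max_of_le_left (by linarith)
    · have h3 : |R| ^ 2 ≤ max (2 * r) |R| ^ 2 :=
        pow_le_pow_left₀ (abs_nonneg _) (le_max_right _ _) 2
      refine le_trans ?_ h3
      change ‖chi r p.a • p.x‖ ^ 2 + ‖chi r p.a • p.y‖ ^ 2 ≤ _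
      rw [norm_smul, norm_smul, mul_pow, mul_pow, ← mul_add, Real.norm_eq_abs, sq_abs R]
      have h4 : |chi r p.a| ^ 2 ≤ 1 := by
        rw [abs_of_nonneg (chi_nonneg r p.a)]
        exact pow_le_one₀ (chi_nonneg r p.a) (chi_le_one r p.a)
      exact (mul_le_of_le_one_left (by positivity) h4).trans hpR
  · have hp' : 2 * r ^ 2 ≤ ‖p.a‖ ^ 2 := by nlinarith [not_lt.1 hp]
    have hp0 : p.a ≠ 0 := by
      intro h0
      rw [h0, norm_zero] at hp'
      nlinarith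
    rw [CT_fl_ge hC hp', CT_fl_ge hC hp']
    set b : Pr e D := dir hP h ⟨toXiT p, hp0⟩ with hb
    have e1 : toXiT p = pol hP h (b, ‖p.a‖) := (pol_dir hP h ⟨toXiT p, hp0⟩).symm
    rcases le_total ‖p.a‖ 1 with h3 | h3
    · rw [e1, C_pol_Lam hP h C, C_pol_Lam hP h C]
      exact (dist_le_of_sp (cmd_C_pol hP h hC.map b ‖p.a‖) (h2 b ‖p.a‖ (norm_nonneg _) h3)
        s t).trans (mul_le_mul_of_nonneg_right (le_max_right _ _) (abs_nonneg _))
    · rw [hC.inv (toXiT p) s h3, hC.inv (toXiT p) t h3, dist_self]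
      exact mul_nonneg (le_max_of_le_left hK₁) (abs_nonneg _)

/-! ### lengths -/

/-- the projection fixes the cut-off vector -/
theorem wT_fixed {v : UT E M} {w : Wp ι} (h1 : Pm F D X δ ε v w.2.1 = w.2.1)
    (h2 : Pm F D X δ ε v w.2.2 = w.2.2) : Pm F D X δ ε v (wT r w).2.1 = (wT r w).2.1 ∧
      Pm F D X δ ε v (wT r w).2.2 = (wT r w).2.2 := by
  constructor
  · change Pm F D X δ ε v (chi r w.1 • w.2.1) = chi r w.1 • w.2.1
    rw [map_smul, h1]
  · change Pm F D X δ ε v (chi r w.1 • w.2.2) = chi r w.1 • w.2.2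
    rw [map_smul, h2]

theorem wT_ne (hr : 0 < r) {w : Wp ι} (h : w ≠ 0) : wT r w ≠ (0, (0, 0)) := by
  intro h0
  unfold wT at h0
  rw [Prod.mk.injEq, Prod.mk.injEq] at h0
  obtain ⟨h3, h4, h5⟩ := h0
  rw [h3, chi_one hr (by rw [norm_zero]; exact hr.le), one_smul] at h4 h5
  exact h (Prod.ext h3 (Prod.ext h4 h5))

theorem norm_chi_smul {ε₁ : ℝ} {a z : EuclideanSpace ℝ ι} (h : ‖z‖ ≤ ε₁) :
    ‖chi r a • z‖ ≤ ε₁ := by
  rw [norm_smul, Real.norm_of_nonneg (chi_nonneg r a)]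
  exact (mul_le_of_le_one_left (norm_nonneg z) (chi_le_one r a)).trans h

section Cpt

attribute [local instance] WF.topUT

/-- the compact set of the `(v, a, x, y)` with `‖a‖ ≤ 2 r`, `s ≤ ‖(a, x, y)‖` -/
def KT (F : Facts e) (D : ℝ) (X δ : ι → UT E M → E) (ε r ε₁ s : ℝ) : Set (UT E M × Wp ι) :=
  {q | (Pm F D X δ ε q.1 q.2.1 = q.2.1 ∧ Pm F D X δ ε q.1 q.2.2.1 = q.2.2.1 ∧
    Pm F D X δ ε q.1 q.2.2.2 = q.2.2.2) ∧ ‖q.2.1‖ ≤ 2 * r ∧
      (‖q.2.2.1‖ ≤ ε₁ ∧ ‖q.2.2.2‖ ≤ ε₁) ∧ s ≤ ‖q.2‖}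

theorem isCompact_KT (h : S2N.Fam F hD hB hdiam l X δ ε) (r ε₁ s : ℝ) :
    IsCompact (KT F D X δ ε r ε₁ s) := by
  have : CompactSpace (UT E M) := compactSpace_UT
  have hP : Continuous (Pm F D X δ ε) := S3N.cont_UT0 (fun {V} _ _ _ {u s} hu => h.sm_Pm hu)
  have hap : ∀ f : UT E M × Wp ι → EuclideanSpace ℝ ι, Continuous f →
      IsClosed {q : UT E M × Wp ι | Pm F D X δ ε q.1 (f q) = f q} := fun f hf =>
    isClosed_eq ((hP.comp continuous_fst).clm_apply hf) hf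
  have hK : IsCompact ((univ : Set (UT E M)) ×ˢ Metric.closedBall (0 : Wp ι)
      (max (2 * r) ε₁)) := isCompact_univ.prod (isCompact_closedBall _ _)
  refine hK.of_isClosed_subset ?_ ?_
  · refine IsClosed.inter ?_ (IsClosed.inter ?_ (IsClosed.inter ?_ ?_))
    · exact (hap (fun q => q.2.1) (by fun_prop)).inter ((hap (fun q => q.2.2.1) (by fun_prop)).inter
        (hap (fun q => q.2.2.2) (by fun_prop)))
    · exact isClosed_le (f := fun q : UT E M × Wp ι => ‖q.2.1‖) (by fun_prop) continuous_const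
    · exact (isClosed_le (f := fun q : UT E M × Wp ι => ‖q.2.2.1‖) (by fun_prop)
        continuous_const).inter (isClosed_le (f := fun q : UT E M × Wp ι => ‖q.2.2.2‖)
          (by fun_prop) continuous_const)
    · exact isClosed_le (f := fun q : UT E M × Wp ι => s) (by fun_prop)
        (continuous_norm.comp continuous_snd)
  · rintro ⟨v, a, x, y⟩ ⟨-, h2, ⟨h3, h4⟩, -⟩
    simp only at h2 h3 h4
    refine ⟨mem_univ _, ?_⟩
    rw [mem_closedBall_zero_iff, Prod.norm_def, Prod.norm_def]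
    exact max_le (h2.trans (le_max_left _ _)) ((max_le h3 h4).trans (le_max_right _ _))

/-- **the energies near the zero section have a uniform margin** -/
theorem exists_energyT (h : S2N.Fam F hD hB hdiam l X δ ε) {ε₁ : ℝ}
    (hPh : PhF F D X δ ε Pc Ps ε₁) (hr : 0 < r) (hr1 : 2 * r ≤ ε₁) {s : ℝ} (hs : 0 < s) :
    ∃ m, m < 4 * D ∧ ∀ q ∈ KT F D X δ ε r ε₁ s, eY F D X Pc Ps (q.1, wT r q.2) ≤ m := by
  have hX : ∀ i, Fld (X i) := fun i => (h.df i).fld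
  have h1 : Continuous (eY F D X Pc Ps) := S3N.cont_UT (map_eY F hX hPh.fc hPh.fs)
  have h2 : Continuous (fun q : UT E M × Wp ι => eY F D X Pc Ps (q.1, wT r q.2)) :=
    h1.comp (continuous_fst.prodMk ((contDiff_wT r).continuous.comp continuous_snd))
  refine exists_lt_of_compact (isCompact_KT h r ε₁ s) h2.continuousOn ?_
  rintro ⟨v, a, x, y⟩ ⟨⟨k1, k2, k3⟩, k4, ⟨k5, k6⟩, k7⟩
  simp only at k1 k2 k3 k4 k5 k6 k7
  obtain ⟨j1, j2⟩ := wT_fixed (F := F) (X := X) (δ := δ) (r := r) (w := (a, (x, y))) k2 k3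
  have h0 : ((a, (x, y)) : Wp ι) ≠ 0 := by
    intro h0
    rw [h0, norm_zero] at k7
    linarith
  have j0 : wT r ((a, (x, y)) : Wp ι) ≠ (0, (0, 0)) := wT_ne hr h0
  exact hPh.en v a _ _ k1 j1 j2 j0 (k4.trans hr1) (norm_chi_smul k5) (norm_chi_smul k6)

end Cpt

/-- the energies near the zero section are at most `4 D` -/
theorem eY_le {ε₁ : ℝ} (hPh : PhF F D X δ ε Pc Ps ε₁) (hr : 0 < r) (hr1 : 2 * r ≤ ε₁)
    {p : TY F D X δ ε} (ha : ‖p.a‖ ≤ 2 * r) (hx : ‖p.x‖ ≤ ε₁) (hy : ‖p.y‖ ≤ ε₁) :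
    eY F D X Pc Ps (p.v, wT r p.w) ≤ 4 * D := by
  by_cases h0 : p.w = 0
  · have h1 : wT r ((0, (0, 0)) : Wp ι) = (0, (0, 0)) := by
      unfold wT
      simp only [smul_zero]
    rw [h0]
    change eY F D X Pc Ps (p.v, wT r ((0, (0, 0)) : Wp ι)) ≤ 4 * D
    rw [h1, eY_zero]
  · obtain ⟨j1, j2⟩ := wT_fixed (F := F) (X := X) (δ := δ) (r := r) (w := p.w) p.px p.py
    exact (hPh.en p.v p.a _ _ p.pa j1 j2 (wT_ne hr h0) (ha.trans hr1) (norm_chi_smul hx)
      (norm_chi_smul hy)).le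

/-- the variation of a loop of period one -/
theorem var_cT (hD : 0 < D) (p : TY F D X δ ε) :
    eVariationOn (cT F hD hB hdiam X δ ε C Pc Ps r p) (Icc 0 1) =
      eVariationOn (fun t => CT C Pc Ps r (flTY F hD hB hdiam X δ ε (p, t))) (Icc 0 (4 * D)) :=
  var_scale (fun t => CT C Pc Ps r (flTY F hD hB hdiam X δ ε (p, t)))
    (c := 4 * D) (by positivity)

/-- the variation near the zero section -/
theorem var_near (h : S2N.Fam F hD hB hdiam l X δ ε) {ε₁ : ℝ} (hPh : PhF F D X δ ε Pc Ps ε₁)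
    {p : TY F D X δ ε} (hp : ‖p.a‖ ^ 2 < 3 * r ^ 2) {m : ℝ}
    (hm : eY F D X Pc Ps (p.v, wT r p.w) ≤ m) :
    eVariationOn (cT F hD hB hdiam X δ ε C Pc Ps r p) (Icc 0 1) ≤
      ENNReal.ofReal ((m + 4 * D) / 2) := by
  have hX : ∀ i, Fld (X i) := fun i => (h.df i).fld
  have h4D : (0 : ℝ) ≤ 4 * D := by linarith
  have e1 : (fun t => CT C Pc Ps r (flTY F hD hB hdiam X δ ε (p, t))) =
      fun t => kY F D X Pc Ps ((p.v, wT r p.w), t) := funext fun t => CT_fl_lt hp t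
  rw [var_cT hD, e1]
  refine (variation_le (cmd_kY F hX hPh.fc hPh.fs p.v (wT r p.w)) h4D).trans ?_
  refine ENNReal.ofReal_le_ofReal ?_
  have h6 : (∫ t in (0 : ℝ)..(4 * D), nm (kY F D X Pc Ps ((p.v, wT r p.w), t))
    (WC.vl (fun t => kY F D X Pc Ps ((p.v, wT r p.w), t)) t : E) ^ 2) ≤ m := hm
  linarith

/-- the variation far from the zero section -/
theorem var_far (hC : StdX F hD hB hdiam X δ ε r C) {p : TY F D X δ ε}
    (hp : 2 * r ^ 2 ≤ ‖p.a‖ ^ 2) {m : ℝ} (hm : eVariationOn (fun t =>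
      C (flXi F hD hB hdiam X δ ε (toXiT p, t))) (Icc 0 (2 * D)) ≤ ENNReal.ofReal m) :
    eVariationOn (cT F hD hB hdiam X δ ε C Pc Ps r p) (Icc 0 1) ≤ ENNReal.ofReal (2 * m) := by
  have e1 : (fun t => CT C Pc Ps r (flTY F hD hB hdiam X δ ε (p, t))) =
      fun t => C (flXi F hD hB hdiam X δ ε (toXiT p, t)) :=
    funext fun t => CT_fl_ge hC hp t
  have e2 : 4 * D = 2 * (2 * D) := by ring
  rw [var_cT hD, e1, e2, var_double (by linarith) (fun t => by rw [flXi_per])]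
  refine (mul_le_mul_right hm 2).trans ?_
  rw [show (2 : ℝ≥0∞) = ENNReal.ofReal 2 by simp, ← ENNReal.ofReal_mul zero_le_two]

/-- **margins of the family over the total space** -/
theorem exists_marginT (h : S2N.Fam F hD hB hdiam l X δ ε) (hC : StdX F hD hB hdiam X δ ε r C)
    (hm : MarginX F hD hB hdiam X δ ε C) {ε₁ : ℝ}
    (hPh : PhF F D X δ ε Pc Ps ε₁) (hr1 : 2 * r ≤ ε₁) {s : ℝ} (hs : 0 < s) :
    ∃ m, 0 < m ∧ m < 4 * D ∧ ∀ p : TY F D X δ ε, ‖p.x‖ ≤ ε₁ → ‖p.y‖ ≤ ε₁ → s ≤ ‖p.w‖ →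
      eVariationOn (cT F hD hB hdiam X δ ε C Pc Ps r p) (Icc 0 1) ≤ ENNReal.ofReal m := by
  have hr := hC.pos
  obtain ⟨m₁, h1, h2⟩ := exists_energyT h hPh hr hr1 hs
  obtain ⟨m₂, h3, h4⟩ := hm r hr
  refine ⟨max D (max ((m₁ + 4 * D) / 2) (2 * m₂)), lt_max_of_lt_left hD,
    max_lt (by linarith) (max_lt (by linarith) (by linarith)), fun p hx hy hw => ?_⟩
  by_cases hp : ‖p.a‖ ^ 2 < 3 * r ^ 2
  · have h5 : ‖p.a‖ ≤ 2 * r := by nlinarith [norm_nonneg p.a]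
    refine (var_near h hPh hp (h2 (p.v, p.w) ⟨⟨p.pa, p.px, p.py⟩, h5, ⟨hx, hy⟩, hw⟩)).trans
      (ENNReal.ofReal_le_ofReal ?_)
    exact (le_max_left _ _).trans (le_max_right _ _)
  · have hp' : 2 * r ^ 2 ≤ ‖p.a‖ ^ 2 := by nlinarith [not_lt.1 hp]
    have hp2 : r ≤ ‖p.a‖ := by nlinarith [norm_nonneg p.a]
    refine (var_far hC hp' (h4 (toXiT p) hp2)).trans (ENNReal.ofReal_le_ofReal ?_)
    exact (le_max_right _ _).trans (le_max_right _ _)

/-- **all loops have length at most `4 D`** -/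
theorem var_le_four (h : S2N.Fam F hD hB hdiam l X δ ε) (hC : StdX F hD hB hdiam X δ ε r C)
    (hm : MarginX F hD hB hdiam X δ ε C) {ε₁ : ℝ}
    (hPh : PhF F D X δ ε Pc Ps ε₁) (hr1 : 2 * r ≤ ε₁) (p : TY F D X δ ε) (hx : ‖p.x‖ ≤ ε₁)
    (hy : ‖p.y‖ ≤ ε₁) : eVariationOn (cT F hD hB hdiam X δ ε C Pc Ps r p) (Icc 0 1) ≤
      ENNReal.ofReal (4 * D) := by
  have hr := hC.pos
  obtain ⟨m₂, h3, h4⟩ := hm r hr
  by_cases hp : ‖p.a‖ ^ 2 < 3 * r ^ 2
  · have h5 : ‖p.a‖ ≤ 2 * r := by nlinarith [norm_nonneg p.a]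
    refine (var_near h hPh hp (eY_le hPh hr hr1 h5 hx hy)).trans (ENNReal.ofReal_le_ofReal ?_)
    linarith
  · have hp' : 2 * r ^ 2 ≤ ‖p.a‖ ^ 2 := by nlinarith [not_lt.1 hp]
    have hp2 : r ≤ ‖p.a‖ := by nlinarith [norm_nonneg p.a]
    refine (var_far hC hp' (h4 (toXiT p) hp2)).trans (ENNReal.ofReal_le_ofReal ?_)
    linarith

/-! ### in the form of `S3B1` -/

/-- the part of the total space with `‖x‖, ‖y‖ ≤ R` -/
def BT (F : Facts e) (D : ℝ) (X δ : ι → UT E M → E) (ε R : ℝ) : Set (TY F D X δ ε) :=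
  {p | ‖p.x‖ ≤ R ∧ ‖p.y‖ ≤ R}

/-- **the family over the total space as a family of loops** -/
theorem exists_LFT (hP : ∀ x y : M, dist x y = D → finrank ℝ (H775.Pl e D x y) = l + 1)
    (h : S2N.Fam F hD hB hdiam l X δ ε) (hC : StdX F hD hB hdiam X δ ε r C) {ε₁ : ℝ}
    (hPh : PhF F D X δ ε Pc Ps ε₁) : ∃ S : ℝ, 0 ≤ S ∧
      S3B1.LF ((dTY F D X δ ε).sub (BT F D X δ ε ε₁)) (dM E M) S
        (fun p => eVariationOn (cT F hD hB hdiam X δ ε C Pc Ps r p.1) (Icc 0 1))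
        (fun p => cT F hD hB hdiam X δ ε C Pc Ps r p.1) := by
  have hX : ∀ i, Fld (X i) := fun i => (h.df i).fld
  obtain ⟨K, hK, hlip⟩ := exists_lipT hP h hC hPh.fc hPh.fs (2 * ε₁)
  refine ⟨K * (4 * D), by positivity, ?_, fun p t => cT_per p.1 t, fun p s t => ?_,
    fun p => le_rfl⟩
  · intro E' _ _ _ u z hu
    exact map_cT hC hX hPh.fc hPh.fs (u := fun s => ((u s).1.1, (u s).2)) ⟨hu.1, hu.2⟩
  · have h1 := p.2.1
    have h2 := p.2.2
    have h3 := hPh.pos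
    refine (hlip p.1 ?_ (4 * D * s) (4 * D * t)).trans (le_of_eq ?_)
    · nlinarith [norm_nonneg p.1.x, norm_nonneg p.1.y]
    · rw [← mul_sub, abs_mul, abs_of_pos (by positivity : 0 < 4 * D)]
      ring

end

end Vale.Agent.P231.S3Y
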