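import Vale.Agent.P231.S3Y.Y
import Vale.Agent.P231.S3C.PX

/-!
# P231, stage 3, S3-Y: comparison with 820's sphere bundles `XC.XS`
-/

set_option maxSynthPendingDepth 3
set_option linter.unusedSectionVars false
set_option linter.unusedVariables false

open Bundle Manifold Set Filter Module MeasureTheory Matrix
open scoped ContDiff Manifold Topology ENNReal

namespace Vale.Agent.P231.S3Y

noncomputable section

open Vale.Agent.P234 Vale.Agent.P231 Vale.Agent.P231.Fm Vale.Agent.P231.W Vale.Agent.P231.WR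
open Vale.Agent.P231.WF Vale.Agent.P231.H766 Vale.Agent.P231.S2N Vale.Agent.P231.S3S
open Vale.Agent.P231.S3C Vale.Agent.P231.XC Vale.Agent.P231.X3

variable {ι : Type} [Fintype ι] [DecidableEq ι]

/-- the real part of a complex vector -/
def rev' (z : ι → ℂ) : EuclideanSpace ℝ ι := WithLp.toLp 2 fun i => (z i).re

/-- the imaginary part of a complex vector -/
def imv (z : ι → ℂ) : EuclideanSpace ℝ ι := WithLp.toLp 2 fun i => (z i).im

theorem rev'_apply (z : ι → ℂ) (i : ι) : rev' z i = (z i).re := rfl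

theorem imv_apply (z : ι → ℂ) (i : ι) : imv z i = (z i).im := rfl

theorem norm_rev_imv {z : ι → ℂ} (h : Uni z) : ‖rev' z‖ ^ 2 + ‖imv z‖ ^ 2 = 1 := by
  rw [EuclideanSpace.norm_sq_eq, EuclideanSpace.norm_sq_eq, ← Finset.sum_add_distrib]
  have h1 := congrArg Complex.re h
  rw [Complex.re_sum, Complex.one_re] at h1
  rw [← h1]
  refine Finset.sum_congr rfl fun i _ => ?_
  rw [rev'_apply, imv_apply, Real.norm_eq_abs, Real.norm_eq_abs, sq_abs, sq_abs]
  simp [Complex.mul_re]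
  ring

theorem sm_rev {W : Type*} [NormedAddCommGroup W] [NormedSpace ℝ W] {z : W → ι → ℂ} {s : W}
    (h : Sm z s) : Sm (fun q => rev' (z q)) s := by
  have h1 : ContDiff ℝ ∞ (fun z : ι → ℂ => rev' z) := by
    rw [contDiff_euclidean]
    intro i
    exact Complex.reCLM.contDiff.comp (contDiff_apply ℝ ℂ i)
  exact Sm.comp (f := fun z : ι → ℂ => rev' z) (Sm.of_contDiff h1 _) h

theorem sm_imv {W : Type*} [NormedAddCommGroup W] [NormedSpace ℝ W] {z : W → ι → ℂ} {s : W}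
    (h : Sm z s) : Sm (fun q => imv (z q)) s := by
  have h1 : ContDiff ℝ ∞ (fun z : ι → ℂ => imv z) := by
    rw [contDiff_euclidean]
    intro i
    exact Complex.imCLM.contDiff.comp (contDiff_apply ℝ ℂ i)
  exact Sm.comp (f := fun z : ι → ℂ => imv z) (Sm.of_contDiff h1 _) h

theorem ph_re (θ : ℝ) : (Cor.ph θ).re = Real.cos θ := by
  unfold Cor.ph
  rw [Complex.add_re, Complex.ofReal_re, Complex.re_ofReal_mul, Complex.I_re, mul_zero, add_zero]

theorem ph_im (θ : ℝ) : (Cor.ph θ).im = Real.sin θ := by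
  unfold Cor.ph
  rw [Complex.add_im, Complex.ofReal_im, Complex.im_ofReal_mul, Complex.I_im, mul_one, zero_add]

theorem rev_ph (θ : ℝ) (z : ι → ℂ) : rev' (Cor.ph θ • z) = rx θ (rev' z) (imv z) := by
  ext i
  unfold rx
  rw [rev'_apply, Pi.smul_apply, smul_eq_mul, Complex.mul_re, PiLp.sub_apply, PiLp.smul_apply,
    PiLp.smul_apply, rev'_apply, imv_apply, smul_eq_mul, smul_eq_mul, ph_re, ph_im]

theorem imv_ph (θ : ℝ) (z : ι → ℂ) : imv (Cor.ph θ • z) = ry θ (rev' z) (imv z) := by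
  ext i
  unfold ry
  rw [imv_apply, Pi.smul_apply, smul_eq_mul, Complex.mul_im, PiLp.add_apply, PiLp.smul_apply,
    PiLp.smul_apply, rev'_apply, imv_apply, smul_eq_mul, smul_eq_mul, ph_re, ph_im]
  ring

variable {E : Type*} [NormedAddCommGroup E] [NormedSpace ℝ E]
  {M : Type*} [MetricSpace M] [ChartedSpace E M]
  [RiemannianBundle (fun x : M => TangentSpace 𝓘(ℝ, E) x)]
  {e : ∀ x : M, TangentSpace 𝓘(ℝ, E) x → M}
  [FiniteDimensional ℝ E] [IsManifold 𝓘(ℝ, E) ∞ M]
  [IsContMDiffRiemannianBundle 𝓘(ℝ, E) ∞ E (fun x : M => TangentSpace 𝓘(ℝ, E) x)]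
  [CompactSpace M] [ConnectedSpace M] [IsRiemannianManifold 𝓘(ℝ, E) M]

variable {D : ℝ} {F : Facts e} {hD : 0 < D} {hB : InjGE e D} {hdiam : ∀ p q : M, dist p q ≤ D}
  {l : ℕ} {X δ : ι → UT E M → E} {ε : ℝ}

/-- vectors fixed by the complexified matrix -/
theorem Pm_of_cplx {v : UT E M} {z : ι → ℂ} (h : cplx (pX F D X δ ε v) *ᵥ z = z) :
    Pm F D X δ ε v (rev' z) = rev' z ∧ Pm F D X δ ε v (imv z) = imv z := by
  constructor
  · ext i
    rw [← pX_mulVec]
    have h1 := congrArg Complex.re (congrFun h i)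
    rw [rev'_apply, ← h1]
    simp only [Matrix.mulVec, dotProduct, cplx, Matrix.map_apply, Complex.re_sum]
    refine Finset.sum_congr rfl fun j _ => ?_
    rw [rev'_apply]
    simp [Complex.mul_re]
  · ext i
    rw [← pX_mulVec]
    have h1 := congrArg Complex.im (congrFun h i)
    rw [imv_apply, ← h1]
    simp only [Matrix.mulVec, dotProduct, cplx, Matrix.map_apply, Complex.im_sum]
    refine Finset.sum_congr rfl fun j _ => ?_
    rw [imv_apply]
    simp [Complex.mul_im]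

/-- the field of matrices over `Xi` -/
abbrev pXi (F : Facts e) (D : ℝ) (X δ : ι → UT E M → E) (ε : ℝ) (p : Xi F D X δ ε) :
    Matrix ι ι ℝ := pX F D X δ ε p.v

theorem pXi_fl (F : Facts e) (hD : 0 < D) (hB : InjGE e D) (hdiam : ∀ p q : M, dist p q ≤ D)
    (X δ : ι → UT E M → E) (ε : ℝ) (b : Xi F D X δ ε) (t : ℝ) :
    pXi F D X δ ε (flXi F hD hB hdiam X δ ε (b, t)) = pXi F D X δ ε b :=
  pX_phi F hD hB hdiam X δ ε b.v t

/-- the comparison map over `Xi` -/
def toYY (p : XS (pXi F D X δ ε)) : YY F D X δ ε where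
  v := p.b.v
  a := p.b.a
  x := rev' p.z
  y := imv p.z
  pa := p.b.pm
  px := (Pm_of_cplx p.Pz).1
  py := (Pm_of_cplx p.Pz).2
  unit := norm_rev_imv p.uni

theorem toXi_toYY (p : XS (pXi F D X δ ε)) : toXi (toYY p) = p.b := rfl

theorem map_toYY : (dX (dXi F D X δ ε) (pXi F D X δ ε)).Map (dYY F D X δ ε) toYY := by
  intro E' _ _ _ u s hu
  have h1 : (dXi F D X δ ε).At (fun q => (u q).b) s := map_b hu
  have h2 : Sm (fun q => (u q).z) s := map_z hu
  exact at_YY.2 ⟨h1.1, h1.2, sm_rev h2, sm_imv h2⟩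

/-- the comparison map is equivariant for the doubled flows -/
theorem toYY_dbl (q : XS (pXi F D X δ ε) × ℝ) :
    toYY (dbl (flXi F hD hB hdiam X δ ε) (pXi_fl F hD hB hdiam X δ ε) (2 * D) q) =
      flYY F hD hB hdiam X δ ε (toYY q.1, q.2) := by
  have h1 : 2 * Real.pi * ((2 * (2 * D))⁻¹ * q.2) = om D * q.2 := by
    unfold om
    field_simp
  refine YY.ext rfl rfl ?_ ?_
  · change rev' (dbl (flXi F hD hB hdiam X δ ε) (pXi_fl F hD hB hdiam X δ ε) (2 * D) q).z = _
    rw [dbl_z, rev_ph, h1]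
    rfl
  · change imv (dbl (flXi F hD hB hdiam X δ ε) (pXi_fl F hD hB hdiam X δ ε) (2 * D) q).z = _
    rw [dbl_z, imv_ph, h1]
    rfl

/-- the comparison map over `UT` -/
def toSE' (p : XS (pX F D X δ ε)) : SE F D X δ ε where
  v := p.b
  x := rev' p.z
  y := imv p.z
  px := (Pm_of_cplx p.Pz).1
  py := (Pm_of_cplx p.Pz).2
  unit := norm_rev_imv p.uni

theorem map_toSE' : (dX (dUT E M) (pX F D X δ ε)).Map (dSE F D X δ ε) toSE' := by
  intro E' _ _ _ u s hu
  exact at_SE.2 ⟨map_b hu, sm_rev (map_z hu), sm_imv (map_z hu)⟩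

theorem toSE'_dbl (q : XS (pX F D X δ ε) × ℝ) :
    toSE' (dbl (phi F) (pX_phi F hD hB hdiam X δ ε) (2 * D) q) =
      flSE F hD hB hdiam X δ ε (toSE' q.1, q.2) := by
  have h1 : 2 * Real.pi * ((2 * (2 * D))⁻¹ * q.2) = om D * q.2 := by
    unfold om
    field_simp
  refine SE.ext rfl ?_ ?_
  · change rev' (dbl (phi F) (pX_phi F hD hB hdiam X δ ε) (2 * D) q).z = _
    rw [dbl_z, rev_ph, h1]
    rfl
  · change imv (dbl (phi F) (pX_phi F hD hB hdiam X δ ε) (2 * D) q).z = _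
    rw [dbl_z, imv_ph, h1]
    rfl

end

end Vale.Agent.P231.S3Y
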